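import Vale.Agent.P141.H136.Scal2
import Vale.Agent.P141.H70.Prj
import Vale.Agent.P141.H572.CE0

/-!
# P141, line W: price of the removed pieces at the mass events, III

Labels at the first vertex, `comp g u v y = g (y₂, y₃) ⟨u (y₁, y₂), v (y₁, y₃)⟩`.

* `comp_price_prj`, `comp_price`: the price of a composite function, vector norms;
* `removed_price`: all the events, the removed piece is `1_Y u'` (heavy rows) plus the projection of
  the rest on the directions `d e x` (above the threshold).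
-/

namespace Vale.Agent.P141.H136

open Finset
open Vale.Agent.P141.PL.H315 (avg avg_nonneg atm e12 e13 e23 Tri)
open Vale.Agent.P141.H922
open Vale.Agent.P141.H419 (n2_congr)
open Vale.Agent.P141.H971 (qf opn)
open Vale.Agent.P141.H70 (Ons prj prj_inner)
open Vale.Agent.P141.H572 (catm catm1 catm1_eq vt sum_abs_price wP_congr vn2_unit vn2_right)
open Vale.Agent.P141.H204 (vn2 vn vn_sq)

noncomputable section

variable {V : Type*} [NormedAddCommGroup V] [InnerProductSpace ℝ V]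

/-- the composite function, labels at the first vertex -/
def comp (g : ℤ × ℤ → ℝ) (u v : ℤ → ℤ → V) (y : ℤ × ℤ × ℤ) : ℝ :=
  g (y.2.1, y.2.2) * inner ℝ (u y.1 y.2.1) (v y.1 y.2.2)

theorem comp_add (g : ℤ × ℤ → ℝ) (u u' v : ℤ → ℤ → V) :
    comp g (fun x y => u x y + u' x y) v = comp g u v + comp g u' v := by
  funext y
  unfold comp
  rw [Pi.add_apply, inner_add_left, mul_add]

/-- rows outside `Y` are zero: the gauge is cut to the rows of `Y` -/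
theorem comp_rows {Y : Finset ℤ} {u : ℤ → ℤ → V} (hu : ∀ x y, y ∉ Y → u x y = 0)
    (g : ℤ × ℤ → ℝ) (v : ℤ → ℤ → V) :
    comp g u v = comp (fun p => if p.1 ∈ Y then g p else 0) u v := by
  funext y
  unfold comp
  simp only
  by_cases h : y.2.1 ∈ Y
  · rw [if_pos h]
  · rw [hu _ _ h, inner_zero_left, mul_zero, mul_zero]

section price

variable {ι : Type*} [Fintype ι]

theorem comp_prj (g : ℤ × ℤ → ℝ) (d : ℤ → ι → V) (u v : ℤ → ℤ → V) :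
    comp g (fun x y => prj (d x) (u x y)) v =
      catm1 g (fun i p => inner ℝ (d p.1 i) (u p.1 p.2)) fun i p => inner ℝ (d p.1 i) (v p.1 p.2) := by
  funext y
  unfold comp catm1
  rw [prj_inner, mul_sum]
  refine sum_congr rfl fun i _ => ?_
  unfold atm e12 e13 e23
  ring

/-- **The price of a composite function**, projected on the directions `d`. -/
theorem comp_price_prj [DecidableEq ι] {ν : Type*} (𝒩 : Finset ν)
    (L : ν → (ℤ × ℤ × ℤ → ℝ) →ₗ[ℝ] ℝ) {P t : ℝ} (hP : 0 ≤ P) (ht : 0 ≤ t)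
    {Q : Finset (ℤ × ℤ × ℤ)} (h : ∀ u : Tri, ∑ N ∈ 𝒩, |L N (atm u)| ≤ P * wP t Q u)
    {d : ℤ → ι → V} (hd : ∀ x, Ons (d x)) (g : ℤ × ℤ → ℝ) (u v : ℤ → ℤ → V) :
    ∑ N ∈ 𝒩, |L N (comp g (fun x y => prj (d x) (u x y)) v)| ≤
      6 * P * wP t Q (fun p => ‖prj (d p.1) (u p.1 p.2)‖,
        fun p => ‖prj (d p.1) (v p.1 p.2)‖, g) := by
  rw [comp_prj, catm1_eq]
  refine (sum_abs_price 𝒩 L hP ht h _ _ _).trans (le_of_eq ?_)
  congr 1
  refine wP_congr t Q (fun p => ?_) (fun p => ?_) fun p => ?_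
  · show vn2 (fun (i : ι) (_ : Unit) (p : ℤ × ℤ) => (inner ℝ (d p.1 i) (u p.1 p.2) : ℝ)) p ^ 2 = _
    rw [vn2_right fun (i : ι) (p : ℤ × ℤ) => (inner ℝ (d p.1 i) (u p.1 p.2) : ℝ), vn_sq]
    exact ((hd p.1).norm_prj_sq _).symm
  · show vn2 (fun (i : ι) (_ : Unit) (p : ℤ × ℤ) => (inner ℝ (d p.1 i) (v p.1 p.2) : ℝ)) p ^ 2 = _
    rw [vn2_right fun (i : ι) (p : ℤ × ℤ) => (inner ℝ (d p.1 i) (v p.1 p.2) : ℝ), vn_sq]
    exact ((hd p.1).norm_prj_sq _).symm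
  · exact vn2_unit g p

end price

theorem prj_basis [FiniteDimensional ℝ V] (v : V) : prj (stdOrthonormalBasis ℝ V) v = v := by
  unfold prj
  exact (stdOrthonormalBasis ℝ V).sum_repr' v

/-- **The price of a composite function**, vector norms. -/
theorem comp_price [FiniteDimensional ℝ V] {ν : Type*} (𝒩 : Finset ν)
    (L : ν → (ℤ × ℤ × ℤ → ℝ) →ₗ[ℝ] ℝ) {P t : ℝ} (hP : 0 ≤ P) (ht : 0 ≤ t)
    {Q : Finset (ℤ × ℤ × ℤ)} (h : ∀ u : Tri, ∑ N ∈ 𝒩, |L N (atm u)| ≤ P * wP t Q u)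
    (g : ℤ × ℤ → ℝ) (u v : ℤ → ℤ → V) :
    ∑ N ∈ 𝒩, |L N (comp g u v)| ≤
      6 * P * wP t Q (fun p => ‖u p.1 p.2‖, fun p => ‖v p.1 p.2‖, g) := by
  have h1 := comp_price_prj 𝒩 L hP ht h
    (d := fun _ i => stdOrthonormalBasis ℝ V i)
    (fun _ => Ons.of_orthonormal (stdOrthonormalBasis ℝ V).orthonormal) g u v
  have e : ∀ v : V, prj (fun i => stdOrthonormalBasis ℝ V i) v = v := prj_basis
  simpa only [e] using h1

/-! ### All the events -/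

section removed

variable {E ι κ ν : Type*} [Fintype κ] [DecidableEq κ] [DecidableEq ι] [DecidableEq V]
  [FiniteDimensional ℝ V]
  {Ev : Finset E} {A B : E → Finset ℤ} {T : Finset ℤ} {s : E → Finset ι} {C : E → ι → Finset ℤ}

/-- **The price of all the removed pieces.** -/
theorem removed_price (hA : ∀ e ∈ Ev, (A e).Nonempty) (hB : ∀ e ∈ Ev, (B e).Nonempty)
    (hC : ∀ e ∈ Ev, ∀ j ∈ s e, (C e j).Nonempty) (hCT : ∀ e ∈ Ev, ∀ j ∈ s e, C e j ⊆ T)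
    (hdis : ∀ e ∈ Ev, (s e : Set ι).PairwiseDisjoint (C e))
    -- the functionals
    {𝒩 : E → ι → Finset ν} {L : ν → (ℤ × ℤ × ℤ → ℝ) →ₗ[ℝ] ℝ} {P : ℝ} (hP : 0 ≤ P)
    (hL : ∀ e ∈ Ev, ∀ j ∈ s e, ∀ u : Tri,
      ∑ N ∈ 𝒩 e j, |L N (atm u)| ≤ P * wP 1 (A e ×ˢ B e ×ˢ C e j) u)
    -- the data
    {g : ℤ × ℤ → ℝ} {v : ℤ → ℤ → V} {r1 w : E → ℤ → ℤ → V} {d : E → ℤ → κ → V}
    {Y : E → Finset ℤ} (hd : ∀ e ∈ Ev, ∀ x, Ons (d e x)) (hY : ∀ e ∈ Ev, Y e ⊆ B e)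
    (hr1 : ∀ e ∈ Ev, ∀ x y, y ∉ Y e → r1 e x y = 0)
    -- pointwise bounds
    (hg1 : ∀ p, |g p| ≤ 1) (hv1 : ∀ x z, ‖v x z‖ ≤ 1)
    (hr11 : ∀ e ∈ Ev, ∀ x y, ‖r1 e x y‖ ≤ 1) (hw1 : ∀ e ∈ Ev, ∀ x y, ‖w e x y‖ ≤ 1)
    -- the threshold and the top potential of `v`
    {W ν0 : ℝ} (hW : 0 < W) (hν : 0 ≤ ν0)
    (hv : ∀ e ∈ Ev, ∀ x ∈ A e, opn T (v x) ≤ ν0 * T.card)
    (hn : ∀ e ∈ Ev, ∀ x ∈ A e, W * (B e).card * ((univ.filter fun i => d e x i ≠ 0).card : ℝ) ≤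
      ∑ y ∈ B e, ‖prj (d e x) (w e x y)‖ ^ 2)
    -- the heavy rows and the degrees of the gauge
    {K' d0 : ℝ} (hK : 0 < K') (hd0 : 0 ≤ d0)
    (hrow : ∀ e ∈ Ev, ∀ y ∈ Y e, K' * (A e).card ≤ ∑ x ∈ A e, ‖r1 e x y‖ ^ 2)
    (hdeg : ∀ e ∈ Ev, ∀ y ∈ Y e, ∑ z ∈ T, g (y, z) ^ 2 ≤ d0 * T.card)
    -- local norms of the gauge and of `v`
    {G2 GN V2 VN : ℝ} (hG2 : 0 ≤ G2) (hGN : 0 ≤ GN) (hV2 : 0 ≤ V2) (hVN : 0 ≤ VN)
    (hg2 : ∀ e ∈ Ev, ∀ j ∈ s e, n2 (B e ×ˢ C e j) g ≤ G2)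
    (hgN : ∀ e ∈ Ev, ∀ j ∈ s e, nN (B e ×ˢ C e j) g ≤ GN)
    (hv2 : ∀ e ∈ Ev, ∀ j ∈ s e, n2 (A e ×ˢ C e j) (fun p => ‖v p.1 p.2‖) ≤ V2)
    (hvN : ∀ e ∈ Ev, ∀ j ∈ s e, nN (A e ×ˢ C e j) (fun p => ‖v p.1 p.2‖) ≤ VN)
    -- area and removed mass
    {R κ0 M : ℝ} (hR : 0 ≤ R) (hκ : 0 ≤ κ0) (hM : 0 ≤ M)
    (harea : ∑ e ∈ Ev, ((A e).card * (B e).card : ℝ) ≤ κ0 * R)
    (hm1 : ∑ e ∈ Ev, ∑ x ∈ A e, ∑ y ∈ B e, ‖r1 e x y‖ ^ 2 ≤ M * R)
    (hm2 : ∑ e ∈ Ev, ∑ x ∈ A e, ∑ y ∈ B e, ‖prj (d e x) (w e x y)‖ ^ 2 ≤ M * R) :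
    ∑ e ∈ Ev, ∑ j ∈ s e, ∑ N ∈ 𝒩 e j,
        |L N (comp g (fun x y => r1 e x y + prj (d e x) (w e x y)) v)| ≤
      6 * P * (R * T.card *
        (pevm κ0 M (ν0 / W) G2 GN + pevm κ0 M (d0 / K') V2 VN)) := by
  have hsum : ∀ (e : E) (F : ℤ → ℤ → ℝ), ∑ p ∈ A e ×ˢ B e, F p.1 p.2 =
      ∑ x ∈ A e, ∑ y ∈ B e, F x y := fun e F => sum_product _ _ _
  -- the directions
  have k1 : ∑ e ∈ Ev, ∑ j ∈ s e, wP 1 (A e ×ˢ B e ×ˢ C e j)
      (fun p => ‖prj (d e p.1) (w e p.1 p.2)‖, fun p => ‖prj (d e p.1) (v p.1 p.2)‖, g) ≤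
      R * T.card * pevm κ0 M (ν0 / W) G2 GN := by
    refine events_le_avg (r := fun e p => ‖prj (d e p.1) (w e p.1 p.2)‖)
      (b := fun e p => ‖prj (d e p.1) (v p.1 p.2)‖) hA hB hC hCT hdis
      (div_nonneg hν hW.le) hG2 hGN hR hκ hM ?_ ?_ ?_ hg2 hgN harea ?_
    · intro e he p _
      rw [abs_of_nonneg (norm_nonneg _)]
      exact ((hd e he p.1).norm_prj_le _).trans (hw1 e he _ _)
    · intro e he p _
      rw [abs_of_nonneg (norm_nonneg _)]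
      exact ((hd e he p.1).norm_prj_le _).trans (hv1 _ _)
    · intro e he
      have h := slab_dir (A := A e) (B := B e) (T := T) hW hν (e := d e)
        (fun x _ i => (hd e he x).norm_le i) (v := v) (hv e he)
        (m := fun x => ∑ y ∈ B e, ‖prj (d e x) (w e x y)‖ ^ 2) (hn e he)
      have e1 : ∑ p ∈ A e ×ˢ T, ‖prj (d e p.1) (v p.1 p.2)‖ ^ 2 =
          ∑ x ∈ A e, ∑ z ∈ T, ∑ i, (inner ℝ (d e x i) (v x z)) ^ 2 := by
        rw [sum_product]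
        exact sum_congr rfl fun x _ => sum_congr rfl fun z _ => (hd e he x).norm_prj_sq _
      have e2 := hsum e fun x y => ‖prj (d e x) (w e x y)‖ ^ 2
      rw [e1, e2]
      exact h
    · refine le_trans (le_of_eq ?_) hm2
      exact sum_congr rfl fun e _ => hsum e fun x y => ‖prj (d e x) (w e x y)‖ ^ 2
  -- the heavy rows
  have k2 : ∑ e ∈ Ev, ∑ j ∈ s e, wP 1 (A e ×ˢ B e ×ˢ C e j)
      (fun p => ‖r1 e p.1 p.2‖, fun p => ‖v p.1 p.2‖,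
        fun p => if p.1 ∈ Y e then g p else 0) ≤
      R * T.card * pevm κ0 M (d0 / K') V2 VN := by
    refine events_rows (r := fun e p => ‖r1 e p.1 p.2‖)
      (h := fun e p => if p.1 ∈ Y e then g p else 0) (v := fun p => ‖v p.1 p.2‖) hA hB hC hCT hdis
      (div_nonneg hd0 hK.le) hV2 hVN hR hκ hM ?_ ?_ ?_ hv2 hvN harea ?_
    · intro e he p _
      rw [abs_of_nonneg (norm_nonneg _)]
      exact hr11 e he _ _
    · intro e _ p _
      split_ifs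
      · exact hg1 p
      · rw [abs_zero]; exact zero_le_one
    · intro e he
      have h := slab_rows (A := A e) (B := B e) (T := T) (hY e he) hK hd0
        (w := fun x y => ‖r1 e x y‖ ^ 2) (hrow e he) (g := g) (hdeg e he)
      have e2 := hsum e fun x y => ‖r1 e x y‖ ^ 2
      rw [e2]
      refine h.trans ?_
      have h3 : ∑ x ∈ A e, ∑ y ∈ Y e, ‖r1 e x y‖ ^ 2 ≤ ∑ x ∈ A e, ∑ y ∈ B e, ‖r1 e x y‖ ^ 2 :=
        sum_le_sum fun x _ => sum_le_sum_of_subset_of_nonneg (hY e he) fun _ _ _ => sq_nonneg _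
      exact mul_le_mul_of_nonneg_right (mul_le_mul_of_nonneg_left h3 (div_nonneg hd0 hK.le))
        (Nat.cast_nonneg _)
    · refine le_trans (le_of_eq ?_) hm1
      exact sum_congr rfl fun e _ => hsum e fun x y => ‖r1 e x y‖ ^ 2
  -- one event and one cell
  have key : ∀ e ∈ Ev, ∀ j ∈ s e, ∑ N ∈ 𝒩 e j,
      |L N (comp g (fun x y => r1 e x y + prj (d e x) (w e x y)) v)| ≤
      6 * P * wP 1 (A e ×ˢ B e ×ˢ C e j) (fun p => ‖prj (d e p.1) (w e p.1 p.2)‖,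
          fun p => ‖prj (d e p.1) (v p.1 p.2)‖, g) +
        6 * P * wP 1 (A e ×ˢ B e ×ˢ C e j) (fun p => ‖r1 e p.1 p.2‖, fun p => ‖v p.1 p.2‖,
          fun p => if p.1 ∈ Y e then g p else 0) := by
    intro e he j hj
    have h1 := comp_price_prj (𝒩 e j) L hP zero_le_one (hL e he j hj) (hd e he) g (w e) v
    have h2 := comp_price (𝒩 e j) L hP zero_le_one (hL e he j hj)
      (fun p => if p.1 ∈ Y e then g p else 0) (r1 e) v
    rw [← comp_rows (hr1 e he) g v] at h2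
    refine le_trans ?_ (add_le_add h1 h2)
    rw [← sum_add_distrib]
    refine sum_le_sum fun N _ => ?_
    rw [comp_add, map_add, add_comm]
    exact abs_add_le _ _
  calc _ ≤ ∑ e ∈ Ev, ∑ j ∈ s e, (6 * P * wP 1 (A e ×ˢ B e ×ˢ C e j)
          (fun p => ‖prj (d e p.1) (w e p.1 p.2)‖, fun p => ‖prj (d e p.1) (v p.1 p.2)‖, g) +
        6 * P * wP 1 (A e ×ˢ B e ×ˢ C e j) (fun p => ‖r1 e p.1 p.2‖, fun p => ‖v p.1 p.2‖,
          fun p => if p.1 ∈ Y e then g p else 0)) :=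
        sum_le_sum fun e he => sum_le_sum fun j hj => key e he j hj
    _ = 6 * P * (∑ e ∈ Ev, ∑ j ∈ s e, wP 1 (A e ×ˢ B e ×ˢ C e j)
          (fun p => ‖prj (d e p.1) (w e p.1 p.2)‖, fun p => ‖prj (d e p.1) (v p.1 p.2)‖, g) +
        ∑ e ∈ Ev, ∑ j ∈ s e, wP 1 (A e ×ˢ B e ×ˢ C e j) (fun p => ‖r1 e p.1 p.2‖,
          fun p => ‖v p.1 p.2‖, fun p => if p.1 ∈ Y e then g p else 0)) := by
        rw [← sum_add_distrib, mul_sum]
        refine sum_congr rfl fun e _ => ?_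
        rw [← sum_add_distrib, mul_sum]
        exact sum_congr rfl fun j _ => by ring
    _ ≤ 6 * P * (R * T.card * pevm κ0 M (ν0 / W) G2 GN +
        R * T.card * pevm κ0 M (d0 / K') V2 VN) :=
        mul_le_mul_of_nonneg_left (add_le_add k1 k2) (by positivity)
    _ = _ := by ring

end removed

end

end Vale.Agent.P141.H136
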