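import Vale.Agent.P141.H136.Scal3
import Vale.Agent.P141.H579.Rest

/-!
# P141, line W: the removed pieces in the cost of a composite function

`comp g u v y = g (y₂, y₃) ⟨u (y₁, y₂), v (y₁, y₃)⟩` in the position of role `0`; the vector edge
`u` is replaced by a path `U k` (the value at the scale `k`), `u = U k + ∑_{j ≥ k} r j`, and `r j`
vanishes on the squares of scale `j` of the first two variables which are no events.

* `cosV`: the cost on the alive boxes, the function in the position of role `0` depends on the scale;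
* `link`: cost of `comp g u v` on the alive boxes `≤` cost of the path + the costs of the removed
  pieces on the cubes over the alive events;
* `removed_cost`: the price of the removed pieces.
-/

namespace Vale.Agent.P141.H136

open Finset
open Vale.Agent.P141.PL (Pt Bx iv ix cb cx loc mem_iv self_mem_iv card_iv mem_cb ix_ix)
open Vale.Agent.P141.PL.H315 (avg avg_nonneg atm e12 e13 e23 Tri cube3)
open Vale.Agent.P141.PL.H560 (cbs bx0 loc_congr0)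
open Vale.Agent.P141.PL.H317 (crn)
open Vale.Agent.P141.H922
open Vale.Agent.P141.H971 (qf opn)
open Vale.Agent.P141.H70 (Ons prj)
open Vale.Agent.P141.H572 (cosF locL locL_apply)
open Vale.Agent.P141.H579 (cosA)

noncomputable section

open scoped Classical

variable {V : Type*} [NormedAddCommGroup V] [InnerProductSpace ℝ V]

/-! ### Indices -/

theorem ix_mul (k : ℕ) (m : ℤ) : ix k (2 ^ k * m) = m := by
  unfold ix
  exact Int.mul_ediv_cancel_left m (by positivity)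

theorem cx_crn (k : ℕ) (m : Pt) : cx k (crn k m) = m := by
  unfold cx crn
  simp only [ix_mul]

theorem cx_cx (a b : ℕ) (m : Pt) : cx b (cx a m) = cx (a + b) m := by
  unfold cx
  simp only [ix_ix]

theorem mem_cbs' {K k : ℕ} {M m : Pt} : m ∈ cbs K M k ↔ cx (K - k) m = M := mem_cb

/-- The boxes of scale `k` over a cube are those over its subcubes of scale `j`. -/
theorem sum_cbs_split {k j K : ℕ} (hk : k ≤ j) (hj : j ≤ K) (M : Pt) (f : Pt → ℝ) :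
    ∑ m ∈ cbs K M k, f m = ∑ M' ∈ cbs K M j, ∑ m ∈ cbs j M' k, f m := by
  rw [← sum_fiberwise_of_maps_to (s := cbs K M k) (t := cbs K M j) (g := fun m => cx (j - k) m)]
  · refine sum_congr rfl fun M' hM' => sum_congr ?_ fun _ _ => rfl
    ext m
    rw [mem_filter, mem_cbs', mem_cbs']
    constructor
    · exact fun h => h.2
    · intro h
      refine ⟨?_, h⟩
      rw [mem_cbs'] at hM'
      rw [← hM', ← h, cx_cx, show j - k + (K - j) = K - k by omega]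
  · intro m hm
    rw [mem_cbs'] at hm ⊢
    rw [cx_cx, show j - k + (K - j) = K - k by omega]
    exact hm

/-! ### The cost of a path -/

/-- the cost on the alive boxes of a function depending on the scale -/
def cosV (A : ℕ → Pt → Prop) (o : ℤ) (K : ℕ) (x : Pt) (F0 : ℕ → Pt → ℝ)
    (F1 F2 F3 : ℕ → Pt → Pt → ℝ) : ℝ :=
  ∑ k ∈ Icc 1 K, (2 ^ k : ℝ)⁻¹ * ∑ m ∈ cbs K (cx K x) k with A k (crn k m),
    |loc k (bx0 o m) (F0 k) (F1 k m) (F2 k m) (F3 k m)|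

theorem cosV_const (A : ℕ → Pt → Prop) (o : ℤ) (K : ℕ) (x : Pt) (F0 : Pt → ℝ)
    (F1 F2 F3 : ℕ → Pt → Pt → ℝ) :
    cosV A o K x (fun _ => F0) F1 F2 F3 = cosA A o K x F0 F1 F2 F3 := rfl

theorem cosV_nonneg (A : ℕ → Pt → Prop) (o : ℤ) (K : ℕ) (x : Pt) (F0 : ℕ → Pt → ℝ)
    (F1 F2 F3 : ℕ → Pt → Pt → ℝ) : 0 ≤ cosV A o K x F0 F1 F2 F3 :=
  sum_nonneg fun _ _ => mul_nonneg (by positivity) (sum_nonneg fun _ _ => abs_nonneg _)

theorem comp_sum (g : ℤ × ℤ → ℝ) {s : Finset ℕ} {u u' : ℤ → ℤ → V} {r : ℕ → ℤ → ℤ → V}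
    (v : ℤ → ℤ → V) (h : ∀ x y, u x y = u' x y + ∑ j ∈ s, r j x y) :
    comp g u v = comp g u' v + ∑ j ∈ s, comp g (r j) v := by
  funext y
  rw [Pi.add_apply, Finset.sum_apply]
  unfold comp
  rw [h, inner_add_left, sum_inner, mul_add, mul_sum]

/-- **The link.** -/
theorem link {A : ℕ → Pt → Prop} (hA1 : ∀ k l z, k ≤ l → A k z → A l z)
    (hA2 : ∀ k z z', cx k z = cx k z' → (A k z ↔ A k z')) {o : ℤ} {K : ℕ} {x : Pt}
    {F1 F2 F3 : ℕ → Pt → Pt → ℝ} {g : ℤ × ℤ → ℝ} {u v : ℤ → ℤ → V} {U r : ℕ → ℤ → ℤ → V}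
    (hU : ∀ k, 1 ≤ k → k ≤ K → ∀ x y, u x y = U k x y + ∑ j ∈ Ico k (K + 1), r j x y)
    {ev : ℕ → ℤ → ℤ → Prop} (hev : ∀ j x y, ¬ ev j (ix j x) (ix j y) → r j x y = 0) :
    cosA A o K x (comp g u v) F1 F2 F3 ≤
      cosV A o K x (fun k => comp g (U k) v) F1 F2 F3 +
        ∑ j ∈ Icc 1 K, ∑ M ∈ cbs K (cx K x) j with A j (crn j M) ∧ ev j M.1 M.2.1,
          cosF o j (crn j M) (comp g (r j) v) F1 F2 F3 := by
  set X : ℕ → ℕ → Pt → ℝ := fun k j m =>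
    |loc k (bx0 o m) (comp g (r j) v) (F1 k m) (F2 k m) (F3 k m)| with hX
  have hX0 : ∀ k j m, 0 ≤ X k j m := fun _ _ _ => abs_nonneg _
  -- one box
  have h1 : ∀ k, 1 ≤ k → k ≤ K → ∀ m : Pt,
      |loc k (bx0 o m) (comp g u v) (F1 k m) (F2 k m) (F3 k m)| ≤
        |loc k (bx0 o m) (comp g (U k) v) (F1 k m) (F2 k m) (F3 k m)| +
          ∑ j ∈ Ico k (K + 1), X k j m := by
    intro k hk1 hkK m
    have e := comp_sum (s := Ico k (K + 1)) g v (hU k hk1 hkK)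
    have e2 : loc k (bx0 o m) (comp g u v) (F1 k m) (F2 k m) (F3 k m) =
        loc k (bx0 o m) (comp g (U k) v) (F1 k m) (F2 k m) (F3 k m) +
          ∑ j ∈ Ico k (K + 1), loc k (bx0 o m) (comp g (r j) v) (F1 k m) (F2 k m) (F3 k m) := by
      rw [e]
      have := map_add (locL k (bx0 o m) (F1 k m) (F2 k m) (F3 k m)) (comp g (U k) v)
        (∑ j ∈ Ico k (K + 1), comp g (r j) v)
      rw [map_sum] at this
      simpa only [locL_apply] using this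
    rw [e2]
    exact (abs_add_le _ _).trans (add_le_add le_rfl (abs_sum_le_sum_abs _ _))
  -- no event: nothing
  have h2 : ∀ k j, k ≤ j → ∀ M m : Pt, m ∈ cbs j M k → ¬ ev j M.1 M.2.1 → X k j m = 0 := by
    intro k j hkj M m hm hne
    simp only [hX]
    rw [abs_eq_zero]
    have h3 : loc k (bx0 o m) (comp g (r j) v) (F1 k m) (F2 k m) (F3 k m) =
        loc k (bx0 o m) (fun _ => 0) (F1 k m) (F2 k m) (F3 k m) := by
      refine loc_congr0 fun p hp => ?_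
      have hp' : cx k p = m := mem_cb.1 hp
      have hM : cx (j - k) m = M := mem_cbs'.1 hm
      have h4 : cx j p = M := by
        rw [← hM, ← hp', cx_cx, show k + (j - k) = j by omega]
      have h5 : ¬ ev j (ix j p.1) (ix j p.2.1) := by
        have e1 : ix j p.1 = M.1 := by rw [← h4]; rfl
        have e2 : ix j p.2.1 = M.2.1 := by rw [← h4]; rfl
        rw [e1, e2]
        exact hne
      unfold comp
      rw [hev j _ _ h5, inner_zero_left, mul_zero]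
    rw [h3]
    exact (locL k (bx0 o m) (F1 k m) (F2 k m) (F3 k m)).map_zero
  -- one scale of boxes, one scale of events
  have h3 : ∀ k j, 1 ≤ k → k ≤ j → j ≤ K →
      ∑ m ∈ cbs K (cx K x) k with A k (crn k m), X k j m ≤
        ∑ M ∈ cbs K (cx K x) j with A j (crn j M) ∧ ev j M.1 M.2.1, ∑ m ∈ cbs j M k, X k j m := by
    intro k j _ hkj hjK
    rw [sum_filter, sum_cbs_split hkj hjK, sum_filter]
    refine sum_le_sum fun M _ => ?_
    by_cases h : A j (crn j M) ∧ ev j M.1 M.2.1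
    · rw [if_pos h]
      refine sum_le_sum fun m _ => ?_
      split_ifs
      · exact le_rfl
      · exact hX0 _ _ _
    · rw [if_neg h]
      refine (sum_eq_zero fun m hm => ?_).le
      split_ifs with hAk
      · refine h2 k j hkj M m hm fun hne => h ⟨?_, hne⟩
        refine (hA2 j _ _ ?_).1 (hA1 k j _ hkj hAk)
        rw [cx_crn]
        have e := cx_cx k (j - k) (crn k m)
        rw [cx_crn, show k + (j - k) = j by omega] at e
        rw [← e]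
        exact mem_cbs'.1 hm
      · rfl
  unfold cosA cosV
  calc ∑ k ∈ Icc 1 K, (2 ^ k : ℝ)⁻¹ * ∑ m ∈ cbs K (cx K x) k with A k (crn k m),
        |loc k (bx0 o m) (comp g u v) (F1 k m) (F2 k m) (F3 k m)|
      ≤ ∑ k ∈ Icc 1 K, ((2 ^ k : ℝ)⁻¹ * ∑ m ∈ cbs K (cx K x) k with A k (crn k m),
        |loc k (bx0 o m) (comp g (U k) v) (F1 k m) (F2 k m) (F3 k m)| +
        ∑ j ∈ Ico k (K + 1), (2 ^ k : ℝ)⁻¹ *
          ∑ m ∈ cbs K (cx K x) k with A k (crn k m), X k j m) := by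
        refine sum_le_sum fun k hk => ?_
        rw [mem_Icc] at hk
        rw [← mul_sum, sum_comm, ← mul_add, ← sum_add_distrib]
        exact mul_le_mul_of_nonneg_left (sum_le_sum fun m _ => h1 k hk.1 hk.2 m) (by positivity)
    _ ≤ ∑ k ∈ Icc 1 K, ((2 ^ k : ℝ)⁻¹ * ∑ m ∈ cbs K (cx K x) k with A k (crn k m),
        |loc k (bx0 o m) (comp g (U k) v) (F1 k m) (F2 k m) (F3 k m)| +
        ∑ j ∈ Ico k (K + 1), (2 ^ k : ℝ)⁻¹ *
          ∑ M ∈ cbs K (cx K x) j with A j (crn j M) ∧ ev j M.1 M.2.1,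
            ∑ m ∈ cbs j M k, X k j m) := by
        refine sum_le_sum fun k hk => ?_
        rw [mem_Icc] at hk
        refine add_le_add le_rfl (sum_le_sum fun j hj => ?_)
        rw [mem_Ico] at hj
        exact mul_le_mul_of_nonneg_left (h3 k j hk.1 hj.1 (by omega)) (by positivity)
    _ = _ := by
        rw [sum_add_distrib]
        congr 1
        rw [sum_comm' (s := Icc 1 K) (t := fun k => Ico k (K + 1)) (t' := Icc 1 K)
          (s' := fun j => Icc 1 j)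
          (by intro a b; simp only [mem_Icc, mem_Ico]; omega)]
        refine sum_congr rfl fun j hj => ?_
        have e : ∀ M : Pt, cosF o j (crn j M) (comp g (r j) v) F1 F2 F3 =
            ∑ k ∈ Icc 1 j, (2 ^ k : ℝ)⁻¹ * ∑ m ∈ cbs j M k, X k j m := by
          intro M
          unfold cosF
          rw [cx_crn]
        rw [sum_congr rfl fun M _ => e M, sum_comm]
        refine sum_congr rfl fun k _ => ?_
        rw [mul_sum]

/-! ### The price of the removed pieces -/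

/-- the nodes over a cube -/
def nds (j : ℕ) (M : Pt) : Finset (Σ _ : ℕ, Pt) := (Icc 1 j).sigma fun k => cbs j M k

theorem cosF_nds (o : ℤ) (j : ℕ) (M : Pt) (F0 : Pt → ℝ) (F1 F2 F3 : ℕ → Pt → Pt → ℝ) :
    cosF o j (crn j M) F0 F1 F2 F3 = ∑ N ∈ nds j M,
      |((2 ^ N.1 : ℝ)⁻¹ • locL N.1 (bx0 o N.2) (F1 N.1 N.2) (F2 N.1 N.2) (F3 N.1 N.2)) F0| := by
  unfold cosF nds
  rw [sum_sigma, cx_crn]
  refine sum_congr rfl fun k _ => ?_
  rw [mul_sum]
  refine sum_congr rfl fun m _ => ?_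
  rw [LinearMap.smul_apply, smul_eq_mul, locL_apply, abs_mul,
    abs_of_nonneg (show (0 : ℝ) ≤ (2 ^ k)⁻¹ by positivity)]

section removed

variable {κ : Type*} [Fintype κ] [FiniteDimensional ℝ V]

/-- **The price of the removed pieces.**  Events `ev j m1 m2`, on an event square the removed piece
is `r1 j m1 m2` (zero off the rows `Y j m1 m2`) plus the projection of `w j m1 m2` on the directions
`d j m1 m2 x`. -/
theorem removed_cost {A : ℕ → Pt → Prop} {o : ℤ} {K : ℕ} {x : Pt}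
    {F1 F2 F3 : ℕ → Pt → Pt → ℝ} {P : ℝ} (hP : 0 ≤ P)
    (hE : ∀ j, 1 ≤ j → j ≤ K → ∀ M ∈ cbs K (cx K x) j, ∀ u : Tri,
      cosF o j (crn j M) (atm u) F1 F2 F3 ≤ P * wP 1 (cb j M) u)
    {g : ℤ × ℤ → ℝ} {v : ℤ → ℤ → V} {r : ℕ → ℤ → ℤ → V} {ev : ℕ → ℤ → ℤ → Prop}
    {r1 w : ℕ → ℤ → ℤ → ℤ → ℤ → V} {d : ℕ → ℤ → ℤ → ℤ → κ → V} {Y : ℕ → ℤ → ℤ → Finset ℤ}
    (hr : ∀ j m1 m2, ev j m1 m2 → ∀ x ∈ iv j m1, ∀ y ∈ iv j m2,
      r j x y = r1 j m1 m2 x y + prj (d j m1 m2 x) (w j m1 m2 x y))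
    (hd : ∀ j m1 m2 x, Ons (d j m1 m2 x)) (hY : ∀ j m1 m2, Y j m1 m2 ⊆ iv j m2)
    (hr1 : ∀ j m1 m2 x y, y ∉ Y j m1 m2 → r1 j m1 m2 x y = 0)
    (hg1 : ∀ p, |g p| ≤ 1) (hv1 : ∀ x z, ‖v x z‖ ≤ 1)
    (hr11 : ∀ j m1 m2 x y, ‖r1 j m1 m2 x y‖ ≤ 1) (hw1 : ∀ j m1 m2 x y, ‖w j m1 m2 x y‖ ≤ 1)
    {W ν0 : ℝ} (hW : 0 < W) (hν : 0 ≤ ν0)
    (hv : ∀ x1, ix K x1 = (cx K x).1 → opn (iv K (cx K x).2.2) (v x1) ≤ ν0 * 2 ^ K)
    (hn : ∀ j m1 m2, ev j m1 m2 → ∀ x ∈ iv j m1,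
      W * 2 ^ j * ((univ.filter fun i => d j m1 m2 x i ≠ 0).card : ℝ) ≤
        ∑ y ∈ iv j m2, ‖prj (d j m1 m2 x) (w j m1 m2 x y)‖ ^ 2)
    {K' d0 : ℝ} (hK : 0 < K') (hd0 : 0 ≤ d0)
    (hrow : ∀ j m1 m2, ev j m1 m2 → ∀ y ∈ Y j m1 m2,
      K' * 2 ^ j ≤ ∑ x ∈ iv j m1, ‖r1 j m1 m2 x y‖ ^ 2)
    (hdeg : ∀ y, ix K y = (cx K x).2.1 → ∑ z ∈ iv K (cx K x).2.2, g (y, z) ^ 2 ≤ d0 * 2 ^ K)
    {G2 GN V2 VN : ℝ} (hG2 : 0 ≤ G2) (hGN : 0 ≤ GN) (hV2 : 0 ≤ V2) (hVN : 0 ≤ VN)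
    (hg2 : ∀ j, 1 ≤ j → j ≤ K → ∀ M ∈ cbs K (cx K x) j, A j (crn j M) →
      n2 (iv j M.2.1 ×ˢ iv j M.2.2) g ≤ G2 ∧ nN (iv j M.2.1 ×ˢ iv j M.2.2) g ≤ GN ∧
      n2 (iv j M.1 ×ˢ iv j M.2.2) (fun p => ‖v p.1 p.2‖) ≤ V2 ∧
      nN (iv j M.1 ×ˢ iv j M.2.2) (fun p => ‖v p.1 p.2‖) ≤ VN)
    {κ0 M0 : ℝ} (hκ : 0 ≤ κ0) (hM : 0 ≤ M0)
    (harea : ∑ j ∈ Icc 1 K, ∑ m ∈ iv (K - j) (cx K x).1 ×ˢ iv (K - j) (cx K x).2.1 with
      ev j m.1 m.2, (4 : ℝ) ^ j ≤ κ0 * 4 ^ K)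
    (hm1 : ∑ j ∈ Icc 1 K, ∑ m ∈ iv (K - j) (cx K x).1 ×ˢ iv (K - j) (cx K x).2.1 with
      ev j m.1 m.2, ∑ x ∈ iv j m.1, ∑ y ∈ iv j m.2, ‖r1 j m.1 m.2 x y‖ ^ 2 ≤ M0 * 4 ^ K)
    (hm2 : ∑ j ∈ Icc 1 K, ∑ m ∈ iv (K - j) (cx K x).1 ×ˢ iv (K - j) (cx K x).2.1 with
      ev j m.1 m.2, ∑ x ∈ iv j m.1, ∑ y ∈ iv j m.2,
        ‖prj (d j m.1 m.2 x) (w j m.1 m.2 x y)‖ ^ 2 ≤ M0 * 4 ^ K) :
    ∑ j ∈ Icc 1 K, ∑ M ∈ cbs K (cx K x) j with A j (crn j M) ∧ ev j M.1 M.2.1,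
        cosF o j (crn j M) (comp g (r j) v) F1 F2 F3 ≤
      6 * P * (8 ^ K * (pevm κ0 M0 (ν0 / W) G2 GN + pevm κ0 M0 (d0 / K') V2 VN)) := by
  set R := cx K x with hR
  set Ev : Finset (Σ _ : ℕ, ℤ × ℤ) := (Icc 1 K).sigma fun j =>
    (iv (K - j) R.1 ×ˢ iv (K - j) R.2.1).filter fun m => ev j m.1 m.2 with hEv
  have mEv : ∀ e ∈ Ev, (1 ≤ e.1 ∧ e.1 ≤ K) ∧
      (e.2.1 ∈ iv (K - e.1) R.1 ∧ e.2.2 ∈ iv (K - e.1) R.2.1) ∧ ev e.1 e.2.1 e.2.2 := by
    intro e he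
    rw [hEv, mem_sigma, mem_Icc, mem_filter, mem_product] at he
    exact he
  have hiv : ∀ (j : ℕ) (m : ℤ), (iv j m).Nonempty := fun j m =>
    card_pos.1 (by rw [card_iv]; positivity)
  have key := removed_price (E := Σ _ : ℕ, ℤ × ℤ) (ι := ℤ) (κ := κ) (ν := Σ _ : ℕ, Pt) (V := V)
    (Ev := Ev) (A := fun e => iv e.1 e.2.1) (B := fun e => iv e.1 e.2.2) (T := iv K R.2.2)
    (s := fun e => (iv (K - e.1) R.2.2).filter fun m3 => A e.1 (crn e.1 (e.2.1, e.2.2, m3)))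
    (C := fun e m3 => iv e.1 m3) (fun e _ => hiv _ _) (fun e _ => hiv _ _)
    (fun e _ m3 _ => hiv _ _)
    (fun e he m3 hm3 => by
      intro z hz
      rw [mem_filter, mem_iv] at hm3
      rw [mem_iv] at hz ⊢
      have := (mEv e he).1.2
      rw [← hm3.1, ← hz, ix_ix, show e.1 + (K - e.1) = K by omega])
    (fun e _ m3 _ m3' _ hne => by
      rw [Function.onFun, disjoint_left]
      intro z hz hz'
      rw [mem_iv] at hz hz'
      exact hne (hz.symm.trans hz'))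
    (𝒩 := fun e m3 => nds e.1 (e.2.1, e.2.2, m3))
    (L := fun N => (2 ^ N.1 : ℝ)⁻¹ • locL N.1 (bx0 o N.2) (F1 N.1 N.2) (F2 N.1 N.2) (F3 N.1 N.2))
    hP
    (fun e he m3 hm3 u => by
      rw [← cosF_nds]
      rw [mem_filter] at hm3
      obtain ⟨h1, h2, _⟩ := mEv e he
      exact hE e.1 h1.1 h1.2 _ (mem_product.2 ⟨h2.1, mem_product.2 ⟨h2.2, hm3.1⟩⟩) u)
    (g := g) (v := v) (r1 := fun e => r1 e.1 e.2.1 e.2.2) (w := fun e => w e.1 e.2.1 e.2.2)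
    (d := fun e => d e.1 e.2.1 e.2.2) (Y := fun e => Y e.1 e.2.1 e.2.2)
    (fun e _ x => hd _ _ _ x) (fun e _ => hY _ _ _) (fun e _ x y => hr1 _ _ _ x y) hg1 hv1
    (fun e _ x y => hr11 _ _ _ x y) (fun e _ x y => hw1 _ _ _ x y) hW hν
    (fun e he x1 hx1 => by
      have hT : ((iv K R.2.2).card : ℝ) = 2 ^ K := by rw [card_iv]; push_cast; rfl
      rw [hT]
      refine hv x1 ?_
      obtain ⟨h1, h2, _⟩ := mEv e he
      rw [mem_iv] at hx1
      have h3 := mem_iv.1 h2.1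
      rw [← h3, ← hx1, ix_ix, show e.1 + (K - e.1) = K by omega])
    (fun e he x1 hx1 => by
      have hB : ((iv e.1 e.2.2).card : ℝ) = 2 ^ e.1 := by rw [card_iv]; push_cast; rfl
      rw [hB]
      exact hn _ _ _ (mEv e he).2.2 x1 hx1)
    hK hd0
    (fun e he y hy => by
      have hB : ((iv e.1 e.2.1).card : ℝ) = 2 ^ e.1 := by rw [card_iv]; push_cast; rfl
      rw [hB]
      exact hrow _ _ _ (mEv e he).2.2 y hy)
    (fun e he y hy => by
      have hT : ((iv K R.2.2).card : ℝ) = 2 ^ K := by rw [card_iv]; push_cast; rfl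
      rw [hT]
      refine hdeg y ?_
      obtain ⟨h1, h2, _⟩ := mEv e he
      have h4 := mem_iv.1 (hY _ _ _ hy)
      have h3 := mem_iv.1 h2.2
      rw [← h3, ← h4, ix_ix, show e.1 + (K - e.1) = K by omega])
    hG2 hGN hV2 hVN
    (fun e he m3 hm3 => by
      rw [mem_filter] at hm3
      obtain ⟨h1, h2, _⟩ := mEv e he
      exact (hg2 e.1 h1.1 h1.2 (e.2.1, e.2.2, m3)
        (mem_product.2 ⟨h2.1, mem_product.2 ⟨h2.2, hm3.1⟩⟩) hm3.2).1)
    (fun e he m3 hm3 => by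
      rw [mem_filter] at hm3
      obtain ⟨h1, h2, _⟩ := mEv e he
      exact (hg2 e.1 h1.1 h1.2 (e.2.1, e.2.2, m3)
        (mem_product.2 ⟨h2.1, mem_product.2 ⟨h2.2, hm3.1⟩⟩) hm3.2).2.1)
    (fun e he m3 hm3 => by
      rw [mem_filter] at hm3
      obtain ⟨h1, h2, _⟩ := mEv e he
      exact (hg2 e.1 h1.1 h1.2 (e.2.1, e.2.2, m3)
        (mem_product.2 ⟨h2.1, mem_product.2 ⟨h2.2, hm3.1⟩⟩) hm3.2).2.2.1)
    (fun e he m3 hm3 => by
      rw [mem_filter] at hm3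
      obtain ⟨h1, h2, _⟩ := mEv e he
      exact (hg2 e.1 h1.1 h1.2 (e.2.1, e.2.2, m3)
        (mem_product.2 ⟨h2.1, mem_product.2 ⟨h2.2, hm3.1⟩⟩) hm3.2).2.2.2)
    (R := 4 ^ K) (κ0 := κ0) (M := M0) (by positivity) hκ hM
    (by
      rw [hEv, sum_sigma]
      refine le_trans (le_of_eq ?_) harea
      refine sum_congr rfl fun j _ => sum_congr rfl fun m _ => ?_
      rw [card_iv, card_iv]
      push_cast
      rw [← mul_pow]; norm_num)
    (by
      rw [hEv, sum_sigma]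
      exact hm1)
    (by
      rw [hEv, sum_sigma]
      exact hm2)
  have e8 : (4 : ℝ) ^ K * ((iv K R.2.2).card : ℝ) = 8 ^ K := by
    rw [card_iv]; push_cast; rw [← mul_pow]; norm_num
  rw [e8] at key
  refine le_trans (le_of_eq ?_) key
  rw [hEv, sum_sigma]
  refine sum_congr rfl fun j hj => ?_
  rw [mem_Icc] at hj
  -- both sides as sums over the three indices
  have lhs : ∑ M ∈ cbs K R j with A j (crn j M) ∧ ev j M.1 M.2.1,
      cosF o j (crn j M) (comp g (r j) v) F1 F2 F3 =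
      ∑ m ∈ iv (K - j) R.1 ×ˢ iv (K - j) R.2.1, ∑ m3 ∈ iv (K - j) R.2.2,
        if A j (crn j (m.1, m.2, m3)) ∧ ev j m.1 m.2 then
          cosF o j (crn j (m.1, m.2, m3)) (comp g (r j) v) F1 F2 F3 else 0 := by
    rw [sum_filter]
    unfold cbs
    rw [sum_product, sum_product]
    refine sum_congr rfl fun m1 _ => ?_
    rw [sum_product]
  rw [lhs, sum_filter]
  refine sum_congr rfl fun m _ => ?_
  by_cases he : ev j m.1 m.2
  · rw [if_pos he, sum_filter]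
    refine sum_congr rfl fun m3 _ => ?_
    by_cases hA : A j (crn j (m.1, m.2, m3))
    · rw [if_pos ⟨hA, he⟩, if_pos hA, cosF_nds]
      refine sum_congr rfl fun N hN => ?_
      have hN' := (mem_sigma.1 hN)
      have hk : 1 ≤ N.1 ∧ N.1 ≤ j := mem_Icc.1 hN'.1
      rw [LinearMap.smul_apply, LinearMap.smul_apply, locL_apply, locL_apply]
      have h3 : loc N.1 (bx0 o N.2) (comp g (r j) v) (F1 N.1 N.2) (F2 N.1 N.2) (F3 N.1 N.2) =
          loc N.1 (bx0 o N.2) (comp g (fun x y => r1 j m.1 m.2 x y +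
            prj (d j m.1 m.2 x) (w j m.1 m.2 x y)) v) (F1 N.1 N.2) (F2 N.1 N.2) (F3 N.1 N.2) := by
        refine loc_congr0 fun p hp => ?_
        have hp' : cx N.1 p = N.2 := mem_cb.1 hp
        have hM : cx (j - N.1) N.2 = (m.1, m.2, m3) := mem_cbs'.1 hN'.2
        have h4 : cx j p = (m.1, m.2, m3) := by
          rw [← hM, ← hp', cx_cx, show N.1 + (j - N.1) = j by omega]
        have e1 : p.1 ∈ iv j m.1 := mem_iv.2 (congrArg Prod.fst h4)
        have e2 : p.2.1 ∈ iv j m.2 := mem_iv.2 (congrArg (fun q => q.2.1) h4)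
        unfold comp
        rw [hr j m.1 m.2 he _ e1 _ e2]
      rw [h3]
    · rw [if_neg fun h => hA h.1, if_neg hA]
  · rw [if_neg he]
    exact sum_eq_zero fun m3 _ => if_neg fun h => he h.2

end removed

end

end Vale.Agent.P141.H136
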