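import Vale.Agent.P141.H136.Num7
import Vale.Agent.P141.H939.Lazy2

/-!
# P141, line W: the vector atom on the alive cubes, rule: rows first, then directions

`lazy_cost`: the cost of `comp g u v` on the alive cubes is at most the cost of the path
`comp g (uc p u k) v` of the removal process (`H939.Lazy2`) plus
`6 P 8^K (pevm .. + pevm ..)` for the removed pieces.
-/

namespace Vale.Agent.P141.H136

open Finset
open Vale.Agent.P141.PL (Pt Bx iv ix cb cx loc mem_iv self_mem_iv card_iv mem_cb ix_ix)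
open Vale.Agent.P141.PL.H315 (avg avg_nonneg atm Tri cube3)
open Vale.Agent.P141.PL.H560 (cbs bx0)
open Vale.Agent.P141.PL.H317 (crn)
open Vale.Agent.P141.H922
open Vale.Agent.P141.H971 (opn mass sqs mass_nonneg)
open Vale.Agent.P141.H70 (Ons prj rk)
open Vale.Agent.P141.H572 (cosF)
open Vale.Agent.P141.H579 (cosA)
open Vale.Agent.P141.H48 (cst cst_crn)
open Vale.Agent.P141.H939 (Par uc Ev rY rP um dE YE uc_eq_sum rY_of_not rP_of_not rP_eq rY_eq
  norm_uc_le ons_dE YE_sub rk_dE_le removed_root area_root uc_top)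

noncomputable section

open scoped Classical

variable {V : Type*} [NormedAddCommGroup V] [InnerProductSpace ℝ V]

/-- the triple of the norms of a vector atom, labels at the first vertex -/
def vtr (g : ℤ × ℤ → ℝ) (u v : ℤ → ℤ → V) : Tri :=
  (fun p => ‖u p.1 p.2‖, fun p => ‖v p.1 p.2‖, g)

/-- the alive cubes of a triple -/
def alv (L : ℝ) (t : Tri) (K : ℕ) (k : ℕ) (z : Pt) : Prop := ¬ cst (L ^ 4) t K k z

theorem alv_up (L : ℝ) (t : Tri) (K : ℕ) : ∀ k l z, k ≤ l → alv L t K k z → alv L t K l z :=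
  fun _ _ _ h h' => Vale.Agent.P141.H579.cst_up h' h

theorem crn_congr {k : ℕ} {z z' : Pt} (h : cx k z = cx k z') : crn k (cx k z) = crn k (cx k z') := by
  rw [h]

theorem alv_congr (L : ℝ) (t : Tri) (K : ℕ) :
    ∀ k z z', cx k z = cx k z' → (alv L t K k z ↔ alv L t K k z') := by
  intro k z z' h
  unfold alv
  rw [← cst_crn (L ^ 4) t K k z, ← cst_crn (L ^ 4) t K k z', h]

theorem um_norm_le (p : Par) (u : ℤ → ℤ → V) (k : ℕ) (x y : ℤ) : ‖um p u k x y‖ ≤ ‖u x y‖ := by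
  rw [Vale.Agent.P141.H939.um_eq_ite]
  split_ifs
  · rw [norm_zero]; exact norm_nonneg _
  · exact norm_uc_le p u _ x y

theorem hvy_of_mem {p : Par} {u : ℤ → ℤ → V} {k : ℕ} {m1 m2 y : ℤ} (h : y ∈ YE p u k m1 m2) :
    p.K * 2 ^ k ≤ ∑ x ∈ iv k m1, ‖uc p u (k + 1) x y‖ ^ 2 := by
  unfold YE at h
  split_ifs at h with he
  · unfold Vale.Agent.P141.H939.Ys at h
    exact (mem_filter.mp h).2.le
  · exact absurd h (notMem_empty y)

section lazy

variable [FiniteDimensional ℝ V]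

/-- **The vector atom on the alive cubes.** -/
theorem lazy_cost {o : ℤ} {K : ℕ} {x : Pt} {F1 F2 F3 : ℕ → Pt → Pt → ℝ} {P : ℝ} (hP : 0 ≤ P)
    (hE : ∀ j, 1 ≤ j → j ≤ K → ∀ M ∈ cbs K (cx K x) j, ∀ u : Tri,
      cosF o j (crn j M) (atm u) F1 F2 F3 ≤ P * wP 1 (cb j M) u)
    {g : ℤ × ℤ → ℝ} {u v : ℤ → ℤ → V} (hg1 : ∀ p, |g p| ≤ 1) (hu1 : ∀ x y, ‖u x y‖ ≤ 1)
    (hv1 : ∀ x z, ‖v x z‖ ≤ 1) {p : Par} (hp : p.Ok) (hN : p.N = K) (hm0 : 0 < p.m0)
    (hs : 0 < p.s) (hK0 : 0 < p.K) {ν0 : ℝ} (hν : 0 ≤ ν0)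
    (hv : ∀ x1, ix K x1 = (cx K x).1 → opn (iv K (cx K x).2.2) (v x1) ≤ ν0 * 2 ^ K)
    {d0 : ℝ} (hd0 : 0 ≤ d0)
    (hdeg : ∀ y, ix K y = (cx K x).2.1 → ∑ z ∈ iv K (cx K x).2.2, g (y, z) ^ 2 ≤ d0 * 2 ^ K)
    {M0 : ℝ} (hM : mass (iv K (cx K x).1) (iv K (cx K x).2.1) u ≤ M0 * 4 ^ K) {L : ℝ}
    (hL : 1 ≤ L) :
    cosA (alv L (vtr g u v) K) o K x (comp g u v) F1 F2 F3 ≤
      cosV (alv L (vtr g u v) K) o K x (fun k => comp g (uc p u k) v) F1 F2 F3 +
      6 * P * (8 ^ K * (pevm (M0 / (p.m0 * p.s)) M0 (ν0 / p.w)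
          (L ^ 2 * n2 (iv K (cx K x).2.1 ×ˢ iv K (cx K x).2.2) g)
          (L ^ 2 * nN (iv K (cx K x).2.1 ×ˢ iv K (cx K x).2.2) g) +
        pevm (M0 / (p.m0 * p.s)) M0 (d0 / p.K)
          (L ^ 2 * n2 (iv K (cx K x).1 ×ˢ iv K (cx K x).2.2) fun q => ‖v q.1 q.2‖)
          (L ^ 2 * nN (iv K (cx K x).1 ×ˢ iv K (cx K x).2.2) fun q => ‖v q.1 q.2‖))) := by
  have h4 : (0 : ℝ) < 4 ^ K := by positivity
  have hM0 : 0 ≤ M0 := by
    have h := (mass_nonneg _ _ _).trans hM
    by_contra hc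
    push Not at hc
    have := mul_neg_of_neg_of_pos hc h4
    linarith
  have hms : 0 < p.m0 * p.s := mul_pos hm0 hs
  -- the link
  have hU : ∀ k, 1 ≤ k → k ≤ K → ∀ x y, u x y = uc p u k x y +
      ∑ j ∈ Ico k (K + 1), (rY p u j x y + rP p u j x y) := by
    intro k _ hk x y
    rw [← uc_eq_sum p u (show k ≤ K + 1 by omega) x y, uc_top p u (by omega)]
  have key1 := link (A := alv L (vtr g u v) K) (alv_up L _ K) (alv_congr L _ K) (o := o)
    (K := K) (x := x) (F1 := F1) (F2 := F2) (F3 := F3) (g := g) (u := u) (v := v)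
    (U := fun k => uc p u k) (r := fun j x y => rY p u j x y + rP p u j x y) hU
    (ev := Ev p u) (fun j x y h => by
      show rY p u j x y + rP p u j x y = 0
      rw [rY_of_not p u h, rP_of_not p u h, add_zero])
  refine key1.trans (add_le_add le_rfl ?_)
  -- sums over the events
  have hIco : Ico 1 (K + 1) = Icc 1 K := by
    ext j
    rw [mem_Ico, mem_Icc]
    omega
  have hrem := removed_root (L := K) p u (cx K x).1 (cx K x).2.1 1
  have hare := area_root (L := K) p u (cx K x).1 (cx K x).2.1 1 hp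
  rw [hIco] at hrem hare
  have key2 := removed_cost (V := V) (κ := Fin p.n) (A := alv L (vtr g u v) K) (o := o) (K := K)
    (x := x) (F1 := F1) (F2 := F2) (F3 := F3) (P := P) hP hE (g := g) (v := v)
    (r := fun j x y => rY p u j x y + rP p u j x y) (ev := Ev p u)
    (r1 := fun j m1 m2 x y => if y ∈ YE p u j m1 m2 then uc p u (j + 1) x y else 0)
    (w := fun j _ _ x y => um p u j x y) (d := fun j m1 m2 x => dE p u j m1 m2 x)
    (Y := fun j m1 m2 => YE p u j m1 m2)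
    (G2 := L ^ 2 * n2 (iv K (cx K x).2.1 ×ˢ iv K (cx K x).2.2) g)
    (GN := L ^ 2 * nN (iv K (cx K x).2.1 ×ˢ iv K (cx K x).2.2) g)
    (V2 := L ^ 2 * n2 (iv K (cx K x).1 ×ˢ iv K (cx K x).2.2) fun q => ‖v q.1 q.2‖)
    (VN := L ^ 2 * nN (iv K (cx K x).1 ×ˢ iv K (cx K x).2.2) fun q => ‖v q.1 q.2‖)
    (fun j m1 m2 _ x hx y hy => by
      rw [mem_iv] at hx hy
      subst hx; subst hy
      show rY p u j x y + rP p u j x y = _
      rw [rP_eq, rY_eq])
    (fun j m1 m2 x => ons_dE p u j m1 m2 x) (fun j m1 m2 => YE_sub p u j m1 m2)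
    (fun j m1 m2 x y h => if_neg h) hg1 hv1
    (fun j m1 m2 x y => by
      show ‖if y ∈ YE p u j m1 m2 then uc p u (j + 1) x y else 0‖ ≤ 1
      split_ifs
      · exact (norm_uc_le p u _ x y).trans (hu1 x y)
      · rw [norm_zero]; exact zero_le_one)
    (fun j _ _ x y => (um_norm_le p u j x y).trans (hu1 x y)) hp.w0 hν hv
    (fun j m1 m2 _ x1 hx1 => by
      refine (rk_dE_le p u j (m2 := m2) hx1).trans (le_of_eq ?_)
      refine sum_congr rfl fun y hy => ?_
      rw [mem_iv] at hx1 hy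
      subst hx1; subst hy
      rw [rP_eq])
    hK0 hd0
    (fun j m1 m2 _ y hy => by
      refine (hvy_of_mem hy).trans (le_of_eq ?_)
      refine sum_congr rfl fun x1 _ => ?_
      simp only [if_pos hy])
    hdeg
    (mul_nonneg (by positivity) (n2_nonneg _ _)) (mul_nonneg (by positivity) (nN_nonneg _ _))
    (mul_nonneg (by positivity) (n2_nonneg _ _)) (mul_nonneg (by positivity) (nN_nonneg _ _))
    (fun j _ hjK M hM' hal => by
      have h := alive_norms hL (u := vtr g u v) hjK (R := cx K x) (mem_cbs'.1 hM') hal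
      exact ⟨h.2.2.1, h.2.2.2, h.2.1.1, h.2.1.2⟩)
    (κ0 := M0 / (p.m0 * p.s)) (M0 := M0) (div_nonneg hM0 hms.le) hM0
    (by
      rw [div_mul_eq_mul_div, le_div_iff₀ hms, mul_comm]
      exact hare.trans hM)
    (by
      refine le_trans ?_ (hrem.trans hM)
      refine sum_le_sum fun j _ => ?_
      refine (sum_le_sum (fun m _ => ?_)).trans (sum_le_sum_of_subset_of_nonneg
        (filter_subset _ _) fun m _ _ => add_nonneg (mass_nonneg _ _ _) (mass_nonneg _ _ _))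
      refine le_trans (le_of_eq ?_) (le_add_of_nonneg_right (mass_nonneg _ _ _))
      unfold mass
      refine sum_congr rfl fun x1 hx1 => sum_congr rfl fun y hy => ?_
      rw [mem_iv] at hx1 hy
      rw [rY_eq, hx1, hy])
    (by
      refine le_trans ?_ (hrem.trans hM)
      refine sum_le_sum fun j _ => ?_
      refine (sum_le_sum (fun m _ => ?_)).trans (sum_le_sum_of_subset_of_nonneg
        (filter_subset _ _) fun m _ _ => add_nonneg (mass_nonneg _ _ _) (mass_nonneg _ _ _))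
      refine le_trans (le_of_eq ?_) (le_add_of_nonneg_left (mass_nonneg _ _ _))
      unfold mass
      refine sum_congr rfl fun x1 hx1 => sum_congr rfl fun y hy => ?_
      rw [mem_iv] at hx1 hy
      rw [rP_eq, hx1, hy])
  exact key2

end lazy

end

end Vale.Agent.P141.H136
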