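import Vale.Agent.P141.H136.Link

/-!
# P141, line W: numbers of the removed pieces

* `pevm_le`: the price of the events in a world of mass `s`;
* `alive_two`, `alive_norms`: the local norms on the alive cubes.
-/

namespace Vale.Agent.P141.H136

open Finset
open Vale.Agent.P141.PL (Pt Bx iv ix cb cx loc mem_iv self_mem_iv card_iv mem_cb ix_ix)
open Vale.Agent.P141.PL.H315 (avg avg_nonneg Tri A2)
open Vale.Agent.P141.PL.H317 (crn)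
open Vale.Agent.P141.H922
open Vale.Agent.P141.H48 (A4 sst cst)
open Vale.Agent.P141.H419 (nN_le_n4)

noncomputable section

/-! ### The price in a world of mass `s` -/

/-- **The price of the events in a world of mass `s`.** -/
theorem pevm_le {κ M θ G2 GN s m a : ℝ} (hs : 0 ≤ s) (hκ : 1 ≤ κ) (hm : 1 ≤ m) (hθ0 : 0 ≤ θ)
    (hθ1 : θ ≤ 1) (ha : 0 ≤ a) (hM0 : 0 ≤ M) (hM : M ≤ m * s) (hGN0 : 0 ≤ GN)
    (hG2 : G2 ≤ a * s ^ (1 / 2 : ℝ)) (hGN : GN ≤ a * s ^ (3 / 8 : ℝ)) :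
    pevm κ M θ G2 GN ≤ 3 * a * s ^ (5 / 4 : ℝ) * (θ ^ (3 / 8 : ℝ) * κ ^ (1 / 4 : ℝ) * m) := by
  have hκ0 : 0 ≤ κ := zero_le_one.trans hκ
  have hm0 : 0 ≤ m := zero_le_one.trans hm
  have hms : 0 ≤ m * s := mul_nonneg hm0 hs
  have e1 : M ^ (3 / 4 : ℝ) ≤ m * s ^ (3 / 4 : ℝ) := by
    calc M ^ (3 / 4 : ℝ) ≤ (m * s) ^ (3 / 4 : ℝ) := Real.rpow_le_rpow hM0 hM (by norm_num)
      _ = m ^ (3 / 4 : ℝ) * s ^ (3 / 4 : ℝ) := Real.mul_rpow hm0 hs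
      _ ≤ m ^ (1 : ℝ) * s ^ (3 / 4 : ℝ) := mul_le_mul_of_nonneg_right
          (Real.rpow_le_rpow_of_exponent_le hm (by norm_num)) (Real.rpow_nonneg hs _)
      _ = _ := by rw [Real.rpow_one]
  have e2 : M ^ (7 / 8 : ℝ) ≤ m * s ^ (7 / 8 : ℝ) := by
    calc M ^ (7 / 8 : ℝ) ≤ (m * s) ^ (7 / 8 : ℝ) := Real.rpow_le_rpow hM0 hM (by norm_num)
      _ = m ^ (7 / 8 : ℝ) * s ^ (7 / 8 : ℝ) := Real.mul_rpow hm0 hs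
      _ ≤ m ^ (1 : ℝ) * s ^ (7 / 8 : ℝ) := mul_le_mul_of_nonneg_right
          (Real.rpow_le_rpow_of_exponent_le hm (by norm_num)) (Real.rpow_nonneg hs _)
      _ = _ := by rw [Real.rpow_one]
  have e3 : κ ^ (1 / 8 : ℝ) ≤ κ ^ (1 / 4 : ℝ) :=
    Real.rpow_le_rpow_of_exponent_le hκ (by norm_num)
  have e4 : θ ^ (1 / 2 : ℝ) ≤ θ ^ (3 / 8 : ℝ) := by
    rcases hθ0.eq_or_lt with h | h
    · rw [← h, Real.zero_rpow (by norm_num), Real.zero_rpow (by norm_num)]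
    · exact Real.rpow_le_rpow_of_exponent_ge h hθ1 (by norm_num)
  have p1 : 0 ≤ θ ^ (3 / 8 : ℝ) := Real.rpow_nonneg hθ0 _
  have p2 : 0 ≤ κ ^ (1 / 4 : ℝ) := Real.rpow_nonneg hκ0 _
  have p2' : 0 ≤ κ ^ (1 / 8 : ℝ) := Real.rpow_nonneg hκ0 _
  have p3 : 0 ≤ s ^ (3 / 4 : ℝ) := Real.rpow_nonneg hs _
  have p4 : 0 ≤ s ^ (7 / 8 : ℝ) := Real.rpow_nonneg hs _
  have p5 : 0 ≤ s ^ (1 / 2 : ℝ) := Real.rpow_nonneg hs _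
  have p6 : 0 ≤ s ^ (3 / 8 : ℝ) := Real.rpow_nonneg hs _
  have q1 : s ^ (1 / 2 : ℝ) * s ^ (3 / 4 : ℝ) = s ^ (5 / 4 : ℝ) := by
    rw [← Real.rpow_add_of_nonneg hs (by norm_num) (by norm_num)]; norm_num
  have q2 : s ^ (3 / 8 : ℝ) * s ^ (7 / 8 : ℝ) = s ^ (5 / 4 : ℝ) := by
    rw [← Real.rpow_add_of_nonneg hs (by norm_num) (by norm_num)]; norm_num
  have r1 : 0 ≤ M ^ (3 / 4 : ℝ) := Real.rpow_nonneg hM0 _
  have r2 : 0 ≤ M ^ (7 / 8 : ℝ) := Real.rpow_nonneg hM0 _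
  unfold pevm
  have t1 : θ ^ (3 / 8 : ℝ) * G2 * (κ ^ (1 / 4 : ℝ) * M ^ (3 / 4 : ℝ)) ≤
      θ ^ (3 / 8 : ℝ) * (a * s ^ (1 / 2 : ℝ)) * (κ ^ (1 / 4 : ℝ) * (m * s ^ (3 / 4 : ℝ))) := by
    gcongr
  have t2 : (θ ^ (1 / 2 : ℝ) + θ ^ (3 / 8 : ℝ)) * GN * (κ ^ (1 / 8 : ℝ) * M ^ (7 / 8 : ℝ)) ≤
      (θ ^ (3 / 8 : ℝ) + θ ^ (3 / 8 : ℝ)) * (a * s ^ (3 / 8 : ℝ)) *
        (κ ^ (1 / 4 : ℝ) * (m * s ^ (7 / 8 : ℝ))) := by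
    have p0 : 0 ≤ θ ^ (1 / 2 : ℝ) := Real.rpow_nonneg hθ0 _
    gcongr
  calc _ ≤ _ := add_le_add t1 t2
    _ = a * (θ ^ (3 / 8 : ℝ) * κ ^ (1 / 4 : ℝ) * m) * (s ^ (1 / 2 : ℝ) * s ^ (3 / 4 : ℝ)) +
        2 * a * (θ ^ (3 / 8 : ℝ) * κ ^ (1 / 4 : ℝ) * m) *
          (s ^ (3 / 8 : ℝ) * s ^ (7 / 8 : ℝ)) := by ring
    _ = _ := by rw [q1, q2]; ring

/-! ### Local norms on the alive cubes -/

theorem n2_sq_A2 (k : ℕ) (a : ℤ × ℤ → ℝ) (s t : ℤ) :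
    n2 (iv k (ix k s) ×ˢ iv k (ix k t)) a ^ 2 = A2 k a s t := n2_sq _ _

theorem n4_four_A4 (k : ℕ) (a : ℤ × ℤ → ℝ) (s t : ℤ) :
    n4 (iv k (ix k s) ×ˢ iv k (ix k t)) a ^ 4 = A4 k a s t := n4_four _ _

/-- an alive square: the local norms, threshold `L ^ 4` -/
theorem alive_two {L : ℝ} (hL : 1 ≤ L) {a : ℤ × ℤ → ℝ} {K k : ℕ} {s t : ℤ}
    (h : ¬ sst (L ^ 4) a K k s t) (hk : k ≤ K) :
    n2 (iv k (ix k s) ×ˢ iv k (ix k t)) a ≤ L ^ 2 * n2 (iv K (ix K s) ×ˢ iv K (ix K t)) a ∧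
    nN (iv k (ix k s) ×ˢ iv k (ix k t)) a ≤ L ^ 2 * nN (iv K (ix K s) ×ˢ iv K (ix K t)) a := by
  obtain ⟨h2, h4⟩ := Vale.Agent.P141.H579.not_sst h le_rfl hk
  have hL0 : 0 ≤ L := zero_le_one.trans hL
  have k2 : n2 (iv k (ix k s) ×ˢ iv k (ix k t)) a ≤
      L ^ 2 * n2 (iv K (ix K s) ×ˢ iv K (ix K t)) a := by
    refine le_of_pow_le_pow_left₀ two_ne_zero (mul_nonneg (by positivity) (n2_nonneg _ _)) ?_
    rw [mul_pow, n2_sq_A2, n2_sq_A2]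
    refine h2.trans (le_of_eq ?_)
    ring
  have k4 : n4 (iv k (ix k s) ×ˢ iv k (ix k t)) a ≤
      L * n4 (iv K (ix K s) ×ˢ iv K (ix K t)) a := by
    refine le_of_pow_le_pow_left₀ four_ne_zero (mul_nonneg hL0 (n4_nonneg _ _)) ?_
    rw [mul_pow, n4_four_A4, n4_four_A4]
    exact h4
  refine ⟨k2, ?_⟩
  refine le_of_pow_le_pow_left₀ two_ne_zero (mul_nonneg (by positivity) (nN_nonneg _ _)) ?_
  rw [mul_pow, nN_sq, nN_sq]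
  have p1 := n2_nonneg (iv K (ix K s) ×ˢ iv K (ix K t)) a
  have p2 := n4_nonneg (iv K (ix K s) ×ˢ iv K (ix K t)) a
  have p3 := n4_nonneg (iv k (ix k s) ×ˢ iv k (ix k t)) a
  calc n2 (iv k (ix k s) ×ˢ iv k (ix k t)) a * n4 (iv k (ix k s) ×ˢ iv k (ix k t)) a
      ≤ (L ^ 2 * n2 (iv K (ix K s) ×ˢ iv K (ix K t)) a) *
        (L * n4 (iv K (ix K s) ×ˢ iv K (ix K t)) a) := by gcongr
    _ = L ^ 3 * (n2 (iv K (ix K s) ×ˢ iv K (ix K t)) a *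
        n4 (iv K (ix K s) ×ˢ iv K (ix K t)) a) := by ring
    _ ≤ L ^ 4 * (n2 (iv K (ix K s) ×ˢ iv K (ix K t)) a *
        n4 (iv K (ix K s) ×ˢ iv K (ix K t)) a) :=
        mul_le_mul_of_nonneg_right (pow_le_pow_right₀ hL (by norm_num)) (mul_nonneg p1 p2)
    _ = _ := by ring

/-- **The local norms on an alive cube** of scale `j` with indices `M` of the root `(K; R)`. -/
theorem alive_norms {L : ℝ} (hL : 1 ≤ L) {u : Tri} {K j : ℕ} (hj : j ≤ K) {M R : Pt}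
    (hM : cx (K - j) M = R) (h : ¬ cst (L ^ 4) u K j (crn j M)) :
    (n2 (iv j M.1 ×ˢ iv j M.2.1) u.1 ≤ L ^ 2 * n2 (iv K R.1 ×ˢ iv K R.2.1) u.1 ∧
      nN (iv j M.1 ×ˢ iv j M.2.1) u.1 ≤ L ^ 2 * nN (iv K R.1 ×ˢ iv K R.2.1) u.1) ∧
    (n2 (iv j M.1 ×ˢ iv j M.2.2) u.2.1 ≤ L ^ 2 * n2 (iv K R.1 ×ˢ iv K R.2.2) u.2.1 ∧
      nN (iv j M.1 ×ˢ iv j M.2.2) u.2.1 ≤ L ^ 2 * nN (iv K R.1 ×ˢ iv K R.2.2) u.2.1) ∧
    (n2 (iv j M.2.1 ×ˢ iv j M.2.2) u.2.2 ≤ L ^ 2 * n2 (iv K R.2.1 ×ˢ iv K R.2.2) u.2.2 ∧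
      nN (iv j M.2.1 ×ˢ iv j M.2.2) u.2.2 ≤ L ^ 2 * nN (iv K R.2.1 ×ˢ iv K R.2.2) u.2.2) := by
  unfold cst at h
  push Not at h
  obtain ⟨h1, h2, h3⟩ := h
  have a1 := alive_two hL h1 hj
  have a2 := alive_two hL h2 hj
  have a3 := alive_two hL h3 hj
  have e : ∀ m : ℤ, ix j (2 ^ j * m) = m := ix_mul j
  have E : ∀ m : ℤ, ix K (2 ^ j * m) = ix (K - j) m := fun m => by
    have := ix_ix j (K - j) (2 ^ j * m)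
    rw [ix_mul, show j + (K - j) = K by omega] at this
    exact this.symm
  have r1 : ix (K - j) M.1 = R.1 := by rw [← hM]; rfl
  have r2 : ix (K - j) M.2.1 = R.2.1 := by rw [← hM]; rfl
  have r3 : ix (K - j) M.2.2 = R.2.2 := by rw [← hM]; rfl
  unfold crn at a1 a2 a3
  simp only [e, E, r1, r2, r3] at a1 a2 a3
  exact ⟨a1, a2, a3⟩

end

end Vale.Agent.P141.H136
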