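import Vale.Agent.P141.H419.WpBox

/-!
# P141, line W: price of the removed pieces at the mass events

A finite family of events, each a square `A e ×ˢ B e` of the plane of the first two vertices with a
removed piece `r e`, `|r e| ≤ 1`, and a companion `b e`, `|b e| ≤ 1`, of slab average at most `ν`;
the third edge `g` has local norms at most `G2`, `GN` on the cells in use.

* `sum_holder`: `∑ a^(1-θ) m^θ ≤ (∑ a)^(1-θ) (∑ m)^θ`;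
* `nN_le_rpow`: `N(f) ≤ (avg f²)^(3/8)` for `|f| ≤ 1`;
* `one_event`: one event, all the third cells in use;
* `events_le`: all events, total area `κ R`, total mass `M R`;
* `events_le_avg`: the same, slab averages at most `θ` times the average removed mass.
-/

namespace Vale.Agent.P141.H136

open Finset
open Vale.Agent.P141.PL.H315 (avg avg_nonneg e12 e13 e23 Tri cube3 iv)
open Vale.Agent.P141.H922
open Vale.Agent.P141.H419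

noncomputable section

/-! ### Hölder with weights -/

/-- **Hölder with weights.** -/
theorem sum_holder {α : Type*} (s : Finset α) {a m : α → ℝ} (ha : ∀ x ∈ s, 0 ≤ a x)
    (hm : ∀ x ∈ s, 0 ≤ m x) {θ : ℝ} (h0 : 0 < θ) (h1 : θ < 1) :
    ∑ x ∈ s, a x ^ (1 - θ) * m x ^ θ ≤ (∑ x ∈ s, a x) ^ (1 - θ) * (∑ x ∈ s, m x) ^ θ := by
  have h2 : 0 < 1 - θ := by linarith
  have hpq : ((1 - θ)⁻¹).HolderConjugate θ⁻¹ := by
    rw [Real.holderConjugate_iff]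
    refine ⟨?_, by rw [inv_inv, inv_inv]; ring⟩
    exact (one_lt_inv₀ h2).2 (by linarith)
  have h := Real.inner_le_Lp_mul_Lq_of_nonneg s hpq (f := fun x => a x ^ (1 - θ))
    (g := fun x => m x ^ θ) (fun x hx => Real.rpow_nonneg (ha x hx) _)
    (fun x hx => Real.rpow_nonneg (hm x hx) _)
  have e1 : ∑ x ∈ s, (a x ^ (1 - θ)) ^ (1 - θ)⁻¹ = ∑ x ∈ s, a x := sum_congr rfl fun x hx => by
    rw [← Real.rpow_mul (ha x hx), mul_inv_cancel₀ h2.ne', Real.rpow_one]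
  have e2 : ∑ x ∈ s, (m x ^ θ) ^ θ⁻¹ = ∑ x ∈ s, m x := sum_congr rfl fun x hx => by
    rw [← Real.rpow_mul (hm x hx), mul_inv_cancel₀ h0.ne', Real.rpow_one]
  rw [e1, e2] at h
  simpa only [one_div, inv_inv] using h

/-- **Hölder with weights**, bounded totals. -/
theorem sum_holder_le {α : Type*} (s : Finset α) {a m : α → ℝ} (ha : ∀ x ∈ s, 0 ≤ a x)
    (hm : ∀ x ∈ s, 0 ≤ m x) {θ : ℝ} (h0 : 0 < θ) (h1 : θ < 1) {S U V : ℝ} (hS : 0 ≤ S)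
    (hU : 0 ≤ U) (hV : 0 ≤ V) (hA : ∑ x ∈ s, a x ≤ U * S) (hM : ∑ x ∈ s, m x ≤ V * S) :
    ∑ x ∈ s, a x ^ (1 - θ) * m x ^ θ ≤ S * (U ^ (1 - θ) * V ^ θ) := by
  have h2 : 0 < 1 - θ := by linarith
  calc ∑ x ∈ s, a x ^ (1 - θ) * m x ^ θ
      ≤ (∑ x ∈ s, a x) ^ (1 - θ) * (∑ x ∈ s, m x) ^ θ := sum_holder s ha hm h0 h1
    _ ≤ (U * S) ^ (1 - θ) * (V * S) ^ θ := by
        have ha0 := sum_nonneg ha
        have hm0 := sum_nonneg hm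
        gcongr
    _ = S * (U ^ (1 - θ) * V ^ θ) := by
        rw [Real.mul_rpow hU hS, Real.mul_rpow hV hS]
        have e : S ^ (1 - θ) * S ^ θ = S := by
          rcases hS.eq_or_lt with h | h
          · rw [← h, Real.zero_rpow h2.ne', zero_mul]
          · rw [← Real.rpow_add h]; simp
        calc U ^ (1 - θ) * S ^ (1 - θ) * (V ^ θ * S ^ θ)
            = (S ^ (1 - θ) * S ^ θ) * (U ^ (1 - θ) * V ^ θ) := by ring
          _ = _ := by rw [e]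

/-- `a (m / a)^θ = a^(1-θ) m^θ` -/
theorem mul_div_rpow {a m θ : ℝ} (ha : 0 < a) (hm : 0 ≤ m) :
    a * (a⁻¹ * m) ^ θ = a ^ (1 - θ) * m ^ θ := by
  rw [Real.mul_rpow (inv_nonneg.2 ha.le) hm, Real.inv_rpow ha.le, Real.rpow_sub ha, Real.rpow_one]
  ring

/-! ### Norms of functions bounded by one -/

variable {X : Type*}

theorem n2_eq_rpow (Q : Finset X) (f : X → ℝ) : n2 Q f = (avg Q fun x => f x ^ 2) ^ (1 / 2 : ℝ) :=
  Real.sqrt_eq_rpow _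

/-- `N(f) ≤ (avg f²)^(3/8)` for `|f| ≤ 1` -/
theorem nN_le_rpow {Q : Finset X} {f : X → ℝ} (hf : ∀ x ∈ Q, |f x| ≤ 1) :
    nN Q f ≤ (avg Q fun x => f x ^ 2) ^ (3 / 8 : ℝ) := by
  have h0 : 0 ≤ avg Q fun x => f x ^ 2 := avg_sq_nonneg Q f
  have h := nN_four_le zero_le_one hf
  rw [one_mul, n2_eq_rpow] at h
  have e1 : ((avg Q fun x => f x ^ 2) ^ (1 / 2 : ℝ)) ^ 3 =
      ((avg Q fun x => f x ^ 2) ^ (3 / 8 : ℝ)) ^ 4 := by
    rw [← Real.rpow_natCast, ← Real.rpow_natCast, ← Real.rpow_mul h0, ← Real.rpow_mul h0]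
    norm_num
  rw [e1] at h
  exact le_of_pow_le_pow_left₀ (by norm_num) (Real.rpow_nonneg h0 _) h

/-! ### One event -/

/-- the price of one event relative to its slab -/
def pev (τ ν G2 GN : ℝ) : ℝ :=
  τ ^ (3 / 8 : ℝ) * ν ^ (3 / 8 : ℝ) * G2 + τ ^ (3 / 8 : ℝ) * ν ^ (1 / 2 : ℝ) * GN +
    τ ^ (1 / 2 : ℝ) * ν ^ (3 / 8 : ℝ) * GN

section event

variable {ι : Type*} {A B T : Finset ℤ} {s : Finset ι} {C : ι → Finset ℤ} {ν G2 GN : ℝ}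
  {r b g : ℤ × ℤ → ℝ}

theorem sum_card_le [DecidableEq ι] (hCT : ∀ j ∈ s, C j ⊆ T)
    (hdis : (s : Set ι).PairwiseDisjoint C) : ∑ j ∈ s, ((C j).card : ℝ) ≤ T.card := by
  have h : ∑ j ∈ s, (C j).card = (s.biUnion C).card := (card_biUnion hdis).symm
  have h2 : (s.biUnion C).card ≤ T.card := card_le_card (biUnion_subset.2 hCT)
  exact_mod_cast h.le.trans h2

theorem sum_mass_le [DecidableEq ι] (A : Finset ℤ) (hCT : ∀ j ∈ s, C j ⊆ T)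
    (hdis : (s : Set ι).PairwiseDisjoint C) {f : ℤ × ℤ → ℝ} (hf : ∀ p ∈ A ×ˢ T, 0 ≤ f p) :
    ∑ j ∈ s, ∑ p ∈ A ×ˢ C j, f p ≤ ∑ p ∈ A ×ˢ T, f p := by
  have h : ∀ D : Finset ℤ, ∑ p ∈ A ×ˢ D, f p = ∑ y ∈ D, ∑ x ∈ A, f (x, y) := fun D => by
    rw [sum_product_right]
  simp only [h]
  rw [← sum_biUnion hdis]
  refine sum_le_sum_of_subset_of_nonneg (biUnion_subset.2 hCT) fun y hy _ => ?_
  exact sum_nonneg fun x hx => hf _ (mem_product.2 ⟨hx, hy⟩)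

/-- Jensen over the third cells. -/
theorem sum_cells [DecidableEq ι] (hA : A.Nonempty) (hC : ∀ j ∈ s, (C j).Nonempty)
    (hCT : ∀ j ∈ s, C j ⊆ T) (hdis : (s : Set ι).PairwiseDisjoint C) (hν : 0 ≤ ν)
    (hb : ∑ p ∈ A ×ˢ T, b p ^ 2 ≤ ν * (A.card * T.card)) {θ : ℝ} (h0 : 0 < θ) (h1 : θ < 1) :
    ∑ j ∈ s, ((C j).card : ℝ) * (avg (A ×ˢ C j) fun p => b p ^ 2) ^ θ ≤ T.card * ν ^ θ := by
  have hA0 : (0 : ℝ) < A.card := by exact_mod_cast hA.card_pos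
  have h := sum_holder_le s (a := fun j => (A.card : ℝ) * (C j).card)
    (m := fun j => ∑ p ∈ A ×ˢ C j, b p ^ 2) (fun j _ => by positivity)
    (fun j _ => sum_nonneg fun _ _ => sq_nonneg _) h0 h1 (S := A.card * T.card) (U := 1) (V := ν)
    (by positivity) zero_le_one hν (by
      rw [← mul_sum, one_mul]
      exact mul_le_mul_of_nonneg_left (sum_card_le hCT hdis) hA0.le)
    ((sum_mass_le A hCT hdis fun _ _ => sq_nonneg _).trans hb)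
  rw [Real.one_rpow, one_mul] at h
  have e : ∀ j ∈ s, ((A.card : ℝ) * (C j).card) ^ (1 - θ) * (∑ p ∈ A ×ˢ C j, b p ^ 2) ^ θ =
      A.card * (((C j).card : ℝ) * (avg (A ×ˢ C j) fun p => b p ^ 2) ^ θ) := by
    intro j hj
    have hC0 : (0 : ℝ) < (C j).card := by exact_mod_cast (hC j hj).card_pos
    rw [← mul_div_rpow (by positivity) (sum_nonneg fun _ _ => sq_nonneg _)]
    unfold avg
    rw [card_product]
    push_cast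
    ring
  rw [sum_congr rfl e, ← mul_sum] at h
  have h2 : (A.card : ℝ) * (∑ j ∈ s, ((C j).card : ℝ) *
      (avg (A ×ˢ C j) fun p => b p ^ 2) ^ θ) ≤ A.card * (T.card * ν ^ θ) := by
    linarith
  exact le_of_mul_le_mul_left h2 hA0

/-- **One event**, all the third cells in use. -/
theorem one_event [DecidableEq ι] (hA : A.Nonempty) (hB : B.Nonempty)
    (hC : ∀ j ∈ s, (C j).Nonempty) (hCT : ∀ j ∈ s, C j ⊆ T)
    (hdis : (s : Set ι).PairwiseDisjoint C) (hν : 0 ≤ ν) (hG2 : 0 ≤ G2) (hGN : 0 ≤ GN)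
    (hr : ∀ p ∈ A ×ˢ B, |r p| ≤ 1) (hb1 : ∀ p ∈ A ×ˢ T, |b p| ≤ 1)
    (hb : ∑ p ∈ A ×ˢ T, b p ^ 2 ≤ ν * (A.card * T.card))
    (hg2 : ∀ j ∈ s, n2 (B ×ˢ C j) g ≤ G2) (hgN : ∀ j ∈ s, nN (B ×ˢ C j) g ≤ GN) :
    ∑ j ∈ s, wP 1 (A ×ˢ B ×ˢ C j) (r, b, g) ≤
      (A.card * B.card * T.card : ℝ) * pev (avg (A ×ˢ B) fun p => r p ^ 2) ν G2 GN := by
  set τ := avg (A ×ˢ B) fun p => r p ^ 2 with hτ
  have hτ0 : 0 ≤ τ := avg_sq_nonneg _ _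
  have kr2 : n2 (A ×ˢ B) r = τ ^ (1 / 2 : ℝ) := n2_eq_rpow _ _
  have krN : nN (A ×ˢ B) r ≤ τ ^ (3 / 8 : ℝ) := nN_le_rpow hr
  have hA0 : (0 : ℝ) < A.card := by exact_mod_cast hA.card_pos
  have hB0 : (0 : ℝ) < B.card := by exact_mod_cast hB.card_pos
  have key : ∀ j ∈ s, wP 1 (A ×ˢ B ×ˢ C j) (r, b, g) ≤
      (A.card * B.card : ℝ) * ((τ ^ (3 / 8 : ℝ) * G2 + τ ^ (1 / 2 : ℝ) * GN) *
        (((C j).card : ℝ) * (avg (A ×ˢ C j) fun p => b p ^ 2) ^ (3 / 8 : ℝ)) +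
        τ ^ (3 / 8 : ℝ) * GN *
          (((C j).card : ℝ) * (avg (A ×ˢ C j) fun p => b p ^ 2) ^ (1 / 2 : ℝ))) := by
    intro j hj
    have hb' : ∀ p ∈ A ×ˢ C j, |b p| ≤ 1 := fun p hp =>
      hb1 p (mem_product.2 ⟨(mem_product.1 hp).1, hCT j hj (mem_product.1 hp).2⟩)
    have kbN : nN (A ×ˢ C j) b ≤ (avg (A ×ˢ C j) fun p => b p ^ 2) ^ (3 / 8 : ℝ) := nN_le_rpow hb'
    have kb2 : n2 (A ×ˢ C j) b = (avg (A ×ˢ C j) fun p => b p ^ 2) ^ (1 / 2 : ℝ) := n2_eq_rpow _ _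
    have hβ : 0 ≤ avg (A ×ˢ C j) fun p => b p ^ 2 := avg_sq_nonneg _ _
    have g2 := hg2 j hj
    have gN := hgN j hj
    unfold wP
    rw [pw3_box hA hB (hC j hj), card_product, card_product, kr2, kb2]
    push_cast
    have m1 : nN (A ×ˢ B) r * nN (A ×ˢ C j) b * n2 (B ×ˢ C j) g ≤
        τ ^ (3 / 8 : ℝ) * (avg (A ×ˢ C j) fun p => b p ^ 2) ^ (3 / 8 : ℝ) * G2 := by
      have := nN_nonneg (A ×ˢ B) r
      have := nN_nonneg (A ×ˢ C j) b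
      have := n2_nonneg (B ×ˢ C j) g
      gcongr
    have m2 : nN (A ×ˢ B) r * nN (B ×ˢ C j) g *
        (avg (A ×ˢ C j) fun p => b p ^ 2) ^ (1 / 2 : ℝ) ≤
        τ ^ (3 / 8 : ℝ) * GN * (avg (A ×ˢ C j) fun p => b p ^ 2) ^ (1 / 2 : ℝ) := by
      have := nN_nonneg (A ×ˢ B) r
      have := nN_nonneg (B ×ˢ C j) g
      gcongr
    have m3 : nN (A ×ˢ C j) b * nN (B ×ˢ C j) g * τ ^ (1 / 2 : ℝ) ≤
        (avg (A ×ˢ C j) fun p => b p ^ 2) ^ (3 / 8 : ℝ) * GN * τ ^ (1 / 2 : ℝ) := by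
      have := nN_nonneg (A ×ˢ C j) b
      have := nN_nonneg (B ×ˢ C j) g
      gcongr
    have hm := mul_le_mul_of_nonneg_left (add_le_add (add_le_add m1 m2) m3)
      (show (0 : ℝ) ≤ 1 * (A.card * (B.card * (C j).card)) by positivity)
    refine hm.trans (le_of_eq ?_)
    ring
  refine (sum_le_sum key).trans ?_
  rw [← mul_sum, sum_add_distrib, ← mul_sum, ← mul_sum]
  have c1 := sum_cells hA hC hCT hdis hν hb (θ := 3 / 8) (by norm_num) (by norm_num)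
  have c2 := sum_cells hA hC hCT hdis hν hb (θ := 1 / 2) (by norm_num) (by norm_num)
  have t1 : (0 : ℝ) ≤ τ ^ (3 / 8 : ℝ) := Real.rpow_nonneg hτ0 _
  have t2 : (0 : ℝ) ≤ τ ^ (1 / 2 : ℝ) := Real.rpow_nonneg hτ0 _
  calc (A.card * B.card : ℝ) * ((τ ^ (3 / 8 : ℝ) * G2 + τ ^ (1 / 2 : ℝ) * GN) *
        (∑ j ∈ s, ((C j).card : ℝ) * (avg (A ×ˢ C j) fun p => b p ^ 2) ^ (3 / 8 : ℝ)) +
        τ ^ (3 / 8 : ℝ) * GN *
          (∑ j ∈ s, ((C j).card : ℝ) * (avg (A ×ˢ C j) fun p => b p ^ 2) ^ (1 / 2 : ℝ)))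
      ≤ (A.card * B.card : ℝ) * ((τ ^ (3 / 8 : ℝ) * G2 + τ ^ (1 / 2 : ℝ) * GN) *
        (T.card * ν ^ (3 / 8 : ℝ)) + τ ^ (3 / 8 : ℝ) * GN * (T.card * ν ^ (1 / 2 : ℝ))) := by
        gcongr
    _ = _ := by unfold pev; ring

end event

/-! ### All events -/

section events

variable {E ι : Type*} {Ev : Finset E} {A B : E → Finset ℤ} {T : Finset ℤ} {s : E → Finset ι}
  {C : E → ι → Finset ℤ} {ν G2 GN R κ M : ℝ} {r b : E → ℤ × ℤ → ℝ} {g : ℤ × ℤ → ℝ}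

/-- the price of all the events relative to the cube -/
def pevs (κ M ν G2 GN : ℝ) : ℝ :=
  κ ^ (5 / 8 : ℝ) * M ^ (3 / 8 : ℝ) * (ν ^ (3 / 8 : ℝ) * G2 + ν ^ (1 / 2 : ℝ) * GN) +
    κ ^ (1 / 2 : ℝ) * M ^ (1 / 2 : ℝ) * ν ^ (3 / 8 : ℝ) * GN

/-- **All the events**: total area `κ R`, total removed mass `M R`. -/
theorem events_le [DecidableEq ι] (hA : ∀ e ∈ Ev, (A e).Nonempty) (hB : ∀ e ∈ Ev, (B e).Nonempty)
    (hC : ∀ e ∈ Ev, ∀ j ∈ s e, (C e j).Nonempty) (hCT : ∀ e ∈ Ev, ∀ j ∈ s e, C e j ⊆ T)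
    (hdis : ∀ e ∈ Ev, (s e : Set ι).PairwiseDisjoint (C e)) (hν : 0 ≤ ν) (hG2 : 0 ≤ G2)
    (hGN : 0 ≤ GN) (hR : 0 ≤ R) (hκ : 0 ≤ κ) (hM : 0 ≤ M)
    (hr : ∀ e ∈ Ev, ∀ p ∈ A e ×ˢ B e, |r e p| ≤ 1)
    (hb1 : ∀ e ∈ Ev, ∀ p ∈ A e ×ˢ T, |b e p| ≤ 1)
    (hb : ∀ e ∈ Ev, ∑ p ∈ A e ×ˢ T, b e p ^ 2 ≤ ν * ((A e).card * T.card))
    (hg2 : ∀ e ∈ Ev, ∀ j ∈ s e, n2 (B e ×ˢ C e j) g ≤ G2)
    (hgN : ∀ e ∈ Ev, ∀ j ∈ s e, nN (B e ×ˢ C e j) g ≤ GN)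
    (harea : ∑ e ∈ Ev, ((A e).card * (B e).card : ℝ) ≤ κ * R)
    (hmass : ∑ e ∈ Ev, ∑ p ∈ A e ×ˢ B e, r e p ^ 2 ≤ M * R) :
    ∑ e ∈ Ev, ∑ j ∈ s e, wP 1 (A e ×ˢ B e ×ˢ C e j) (r e, b e, g) ≤
      R * T.card * pevs κ M ν G2 GN := by
  have h1 : ∀ e ∈ Ev, ∑ j ∈ s e, wP 1 (A e ×ˢ B e ×ˢ C e j) (r e, b e, g) ≤
      T.card * ((ν ^ (3 / 8 : ℝ) * G2 + ν ^ (1 / 2 : ℝ) * GN) *
        (((A e).card * (B e).card : ℝ) ^ (1 - 3 / 8 : ℝ) *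
          (∑ p ∈ A e ×ˢ B e, r e p ^ 2) ^ (3 / 8 : ℝ)) + ν ^ (3 / 8 : ℝ) * GN *
        (((A e).card * (B e).card : ℝ) ^ (1 - 1 / 2 : ℝ) *
          (∑ p ∈ A e ×ˢ B e, r e p ^ 2) ^ (1 / 2 : ℝ))) := by
    intro e he
    have hA0 : (0 : ℝ) < (A e).card := by exact_mod_cast (hA e he).card_pos
    have hB0 : (0 : ℝ) < (B e).card := by exact_mod_cast (hB e he).card_pos
    refine (one_event (hA e he) (hB e he) (hC e he) (hCT e he) (hdis e he) hν hG2 hGN (hr e he)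
      (hb1 e he) (hb e he) (hg2 e he) (hgN e he)).trans (le_of_eq ?_)
    have hm : 0 ≤ ∑ p ∈ A e ×ˢ B e, r e p ^ 2 := sum_nonneg fun _ _ => sq_nonneg _
    rw [← mul_div_rpow (by positivity) hm, ← mul_div_rpow (by positivity) hm]
    unfold pev avg
    rw [card_product]
    push_cast
    ring
  refine (sum_le_sum h1).trans ?_
  rw [← mul_sum, sum_add_distrib, ← mul_sum, ← mul_sum]
  have k1 := sum_holder_le Ev (a := fun e => ((A e).card * (B e).card : ℝ))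
    (m := fun e => ∑ p ∈ A e ×ˢ B e, r e p ^ 2) (fun e _ => by positivity)
    (fun e _ => sum_nonneg fun _ _ => sq_nonneg _) (θ := 3 / 8) (by norm_num) (by norm_num)
    hR hκ hM harea hmass
  have k2 := sum_holder_le Ev (a := fun e => ((A e).card * (B e).card : ℝ))
    (m := fun e => ∑ p ∈ A e ×ˢ B e, r e p ^ 2) (fun e _ => by positivity)
    (fun e _ => sum_nonneg fun _ _ => sq_nonneg _) (θ := 1 / 2) (by norm_num) (by norm_num)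
    hR hκ hM harea hmass
  have e1 : (1 - 3 / 8 : ℝ) = 5 / 8 := by norm_num
  have e2 : (1 - 1 / 2 : ℝ) = 1 / 2 := by norm_num
  have n1 : 0 ≤ ν ^ (3 / 8 : ℝ) := Real.rpow_nonneg hν _
  have n2' : 0 ≤ ν ^ (1 / 2 : ℝ) := Real.rpow_nonneg hν _
  calc _ ≤ (T.card : ℝ) * ((ν ^ (3 / 8 : ℝ) * G2 + ν ^ (1 / 2 : ℝ) * GN) *
        (R * (κ ^ (1 - 3 / 8 : ℝ) * M ^ (3 / 8 : ℝ))) + ν ^ (3 / 8 : ℝ) * GN *
        (R * (κ ^ (1 - 1 / 2 : ℝ) * M ^ (1 / 2 : ℝ)))) := by gcongr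
    _ = _ := by
        rw [e1, e2]
        unfold pevs
        ring

/-- the price of all the events, slab averages proportional to the removed mass -/
def pevm (κ M θ G2 GN : ℝ) : ℝ :=
  θ ^ (3 / 8 : ℝ) * G2 * (κ ^ (1 / 4 : ℝ) * M ^ (3 / 4 : ℝ)) +
    (θ ^ (1 / 2 : ℝ) + θ ^ (3 / 8 : ℝ)) * GN * (κ ^ (1 / 8 : ℝ) * M ^ (7 / 8 : ℝ))

/-- **All the events**, the slab average of the companion at most `θ` times the average of the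
removed mass (average rank): total area `κ R`, total removed mass `M R`. -/
theorem events_le_avg [DecidableEq ι] {θ : ℝ} (hA : ∀ e ∈ Ev, (A e).Nonempty)
    (hB : ∀ e ∈ Ev, (B e).Nonempty)
    (hC : ∀ e ∈ Ev, ∀ j ∈ s e, (C e j).Nonempty) (hCT : ∀ e ∈ Ev, ∀ j ∈ s e, C e j ⊆ T)
    (hdis : ∀ e ∈ Ev, (s e : Set ι).PairwiseDisjoint (C e)) (hθ : 0 ≤ θ) (hG2 : 0 ≤ G2)
    (hGN : 0 ≤ GN) (hR : 0 ≤ R) (hκ : 0 ≤ κ) (hM : 0 ≤ M)
    (hr : ∀ e ∈ Ev, ∀ p ∈ A e ×ˢ B e, |r e p| ≤ 1)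
    (hb1 : ∀ e ∈ Ev, ∀ p ∈ A e ×ˢ T, |b e p| ≤ 1)
    (hb : ∀ e ∈ Ev, (∑ p ∈ A e ×ˢ T, b e p ^ 2) * (B e).card ≤
      θ * (∑ p ∈ A e ×ˢ B e, r e p ^ 2) * T.card)
    (hg2 : ∀ e ∈ Ev, ∀ j ∈ s e, n2 (B e ×ˢ C e j) g ≤ G2)
    (hgN : ∀ e ∈ Ev, ∀ j ∈ s e, nN (B e ×ˢ C e j) g ≤ GN)
    (harea : ∑ e ∈ Ev, ((A e).card * (B e).card : ℝ) ≤ κ * R)
    (hmass : ∑ e ∈ Ev, ∑ p ∈ A e ×ˢ B e, r e p ^ 2 ≤ M * R) :
    ∑ e ∈ Ev, ∑ j ∈ s e, wP 1 (A e ×ˢ B e ×ˢ C e j) (r e, b e, g) ≤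
      R * T.card * pevm κ M θ G2 GN := by
  have n1 : 0 ≤ θ ^ (3 / 8 : ℝ) := Real.rpow_nonneg hθ _
  have n2' : 0 ≤ θ ^ (1 / 2 : ℝ) := Real.rpow_nonneg hθ _
  have h1 : ∀ e ∈ Ev, ∑ j ∈ s e, wP 1 (A e ×ˢ B e ×ˢ C e j) (r e, b e, g) ≤
      T.card * (θ ^ (3 / 8 : ℝ) * G2 *
        (((A e).card * (B e).card : ℝ) ^ (1 - 3 / 4 : ℝ) *
          (∑ p ∈ A e ×ˢ B e, r e p ^ 2) ^ (3 / 4 : ℝ)) + (θ ^ (1 / 2 : ℝ) + θ ^ (3 / 8 : ℝ)) * GN *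
        (((A e).card * (B e).card : ℝ) ^ (1 - 7 / 8 : ℝ) *
          (∑ p ∈ A e ×ˢ B e, r e p ^ 2) ^ (7 / 8 : ℝ))) := by
    intro e he
    have hA0 : (0 : ℝ) < (A e).card := by exact_mod_cast (hA e he).card_pos
    have hB0 : (0 : ℝ) < (B e).card := by exact_mod_cast (hB e he).card_pos
    have hm : 0 ≤ ∑ p ∈ A e ×ˢ B e, r e p ^ 2 := sum_nonneg fun _ _ => sq_nonneg _
    set τ := avg (A e ×ˢ B e) fun p => r e p ^ 2 with hτ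
    have hτ0 : 0 ≤ τ := avg_sq_nonneg _ _
    have hb' : ∑ p ∈ A e ×ˢ T, b e p ^ 2 ≤ θ * τ * ((A e).card * T.card) := by
      have h2 : (∑ p ∈ A e ×ˢ T, b e p ^ 2) * (B e).card ≤
          θ * τ * ((A e).card * T.card) * (B e).card := by
        refine (hb e he).trans (le_of_eq ?_)
        rw [hτ]
        unfold avg
        rw [card_product]
        push_cast
        field_simp
      exact le_of_mul_le_mul_right h2 hB0
    refine (one_event (hA e he) (hB e he) (hC e he) (hCT e he) (hdis e he)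
      (mul_nonneg hθ hτ0) hG2 hGN (hr e he)
      (hb1 e he) hb' (hg2 e he) (hgN e he)).trans (le_of_eq ?_)
    rw [← mul_div_rpow (by positivity) hm, ← mul_div_rpow (by positivity) hm]
    have eτ : ((A e).card * (B e).card : ℝ)⁻¹ * ∑ p ∈ A e ×ˢ B e, r e p ^ 2 = τ := by
      rw [hτ]
      unfold avg
      rw [card_product]
      push_cast
      rfl
    rw [eτ]
    have q1 : τ ^ (3 / 8 : ℝ) * τ ^ (3 / 8 : ℝ) = τ ^ (3 / 4 : ℝ) := by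
      rw [← Real.rpow_add_of_nonneg hτ0 (by norm_num) (by norm_num)]; norm_num
    have q2 : τ ^ (3 / 8 : ℝ) * τ ^ (1 / 2 : ℝ) = τ ^ (7 / 8 : ℝ) := by
      rw [← Real.rpow_add_of_nonneg hτ0 (by norm_num) (by norm_num)]; norm_num
    unfold pev
    rw [← hτ, Real.mul_rpow hθ hτ0, Real.mul_rpow hθ hτ0]
    calc ((A e).card * (B e).card * T.card : ℝ) *
          (τ ^ (3 / 8 : ℝ) * (θ ^ (3 / 8 : ℝ) * τ ^ (3 / 8 : ℝ)) * G2 +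
            τ ^ (3 / 8 : ℝ) * (θ ^ (1 / 2 : ℝ) * τ ^ (1 / 2 : ℝ)) * GN +
            τ ^ (1 / 2 : ℝ) * (θ ^ (3 / 8 : ℝ) * τ ^ (3 / 8 : ℝ)) * GN)
        = ((A e).card * (B e).card * T.card : ℝ) *
          (θ ^ (3 / 8 : ℝ) * G2 * (τ ^ (3 / 8 : ℝ) * τ ^ (3 / 8 : ℝ)) +
            (θ ^ (1 / 2 : ℝ) + θ ^ (3 / 8 : ℝ)) * GN * (τ ^ (3 / 8 : ℝ) * τ ^ (1 / 2 : ℝ))) := by
          ring
      _ = _ := by rw [q1, q2]; ring
  refine (sum_le_sum h1).trans ?_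
  rw [← mul_sum, sum_add_distrib, ← mul_sum, ← mul_sum]
  have k1 := sum_holder_le Ev (a := fun e => ((A e).card * (B e).card : ℝ))
    (m := fun e => ∑ p ∈ A e ×ˢ B e, r e p ^ 2) (fun e _ => by positivity)
    (fun e _ => sum_nonneg fun _ _ => sq_nonneg _) (θ := 3 / 4) (by norm_num) (by norm_num)
    hR hκ hM harea hmass
  have k2 := sum_holder_le Ev (a := fun e => ((A e).card * (B e).card : ℝ))
    (m := fun e => ∑ p ∈ A e ×ˢ B e, r e p ^ 2) (fun e _ => by positivity)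
    (fun e _ => sum_nonneg fun _ _ => sq_nonneg _) (θ := 7 / 8) (by norm_num) (by norm_num)
    hR hκ hM harea hmass
  have e1 : (1 - 3 / 4 : ℝ) = 1 / 4 := by norm_num
  have e2 : (1 - 7 / 8 : ℝ) = 1 / 8 := by norm_num
  calc _ ≤ (T.card : ℝ) * (θ ^ (3 / 8 : ℝ) * G2 *
        (R * (κ ^ (1 - 3 / 4 : ℝ) * M ^ (3 / 4 : ℝ))) + (θ ^ (1 / 2 : ℝ) + θ ^ (3 / 8 : ℝ)) * GN *
        (R * (κ ^ (1 - 7 / 8 : ℝ) * M ^ (7 / 8 : ℝ)))) := by gcongr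
    _ = _ := by
        rw [e1, e2]
        unfold pevm
        ring

end events

end

end Vale.Agent.P141.H136
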