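import Vale.Agent.P141.H136.Scal
import Vale.Agent.P141.H971.Split

/-!
# P141, line W: price of the removed pieces at the mass events, II

* `events_rows`: removed heavy rows: the edges are `(r, v, g 1_Y)`, slab average of `g 1_Y` at most
  `ρ` times the average removed mass, `v` with local norms at most `V2`, `VN`;
* `slab_dir`: the slab average of the companion in the removed directions (average rank);
* `slab_rows`: the slab average of the gauge on the heavy rows.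
-/

namespace Vale.Agent.P141.H136

open Finset
open Vale.Agent.P141.PL.H315 (avg avg_nonneg e12 e13 e23 Tri)
open Vale.Agent.P141.H922
open Vale.Agent.P141.H419
open Vale.Agent.P141.H971 (qf opn qf_le_opn opn_nonneg)

noncomputable section

/-! ### Exchange of the first two vertices -/

theorem avg_sw (A B : Finset ℤ) (φ : ℤ × ℤ → ℝ) :
    avg (A ×ˢ B) (fun q => φ (q.2, q.1)) = avg (B ×ˢ A) φ := by
  unfold avg
  rw [card_product, card_product, Nat.mul_comm, sum_product, sum_product_right]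

theorem n2_sw' (A B : Finset ℤ) (f : ℤ × ℤ → ℝ) :
    n2 (A ×ˢ B) (fun q => f (q.2, q.1)) = n2 (B ×ˢ A) f := by
  unfold n2
  rw [avg_sw A B fun q => f q ^ 2]

theorem n4_sw' (A B : Finset ℤ) (f : ℤ × ℤ → ℝ) :
    n4 (A ×ˢ B) (fun q => f (q.2, q.1)) = n4 (B ×ˢ A) f := by
  unfold n4
  rw [avg_sw A B fun q => f q ^ 4]

theorem nN_sw' (A B : Finset ℤ) (f : ℤ × ℤ → ℝ) :
    nN (A ×ˢ B) (fun q => f (q.2, q.1)) = nN (B ×ˢ A) f := by
  unfold nN
  rw [n2_sw', n4_sw']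

theorem wP_swap12 {A B C : Finset ℤ} (hA : A.Nonempty) (hB : B.Nonempty) (hC : C.Nonempty)
    (δ : ℝ) (r b g : ℤ × ℤ → ℝ) :
    wP δ (B ×ˢ A ×ˢ C) (fun q => r (q.2, q.1), g, b) = wP δ (A ×ˢ B ×ˢ C) (r, b, g) := by
  unfold wP
  rw [pw3_box hA hB hC, pw3_box hB hA hC, nN_sw', n2_sw']
  simp only [card_product]
  push_cast
  ring

/-! ### Heavy rows -/

section rows

variable {E ι : Type*} {Ev : Finset E} {A B : E → Finset ℤ} {T : Finset ℤ} {s : E → Finset ι}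
  {C : E → ι → Finset ℤ} {ρ V2 VN R κ M : ℝ} {r h : E → ℤ × ℤ → ℝ} {v : ℤ × ℤ → ℝ}

/-- **All the events, heavy rows removed**: edges `(r e, v, h e)`. -/
theorem events_rows [DecidableEq ι] (hA : ∀ e ∈ Ev, (A e).Nonempty)
    (hB : ∀ e ∈ Ev, (B e).Nonempty)
    (hC : ∀ e ∈ Ev, ∀ j ∈ s e, (C e j).Nonempty) (hCT : ∀ e ∈ Ev, ∀ j ∈ s e, C e j ⊆ T)
    (hdis : ∀ e ∈ Ev, (s e : Set ι).PairwiseDisjoint (C e)) (hρ : 0 ≤ ρ) (hV2 : 0 ≤ V2)
    (hVN : 0 ≤ VN) (hR : 0 ≤ R) (hκ : 0 ≤ κ) (hM : 0 ≤ M)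
    (hr : ∀ e ∈ Ev, ∀ p ∈ A e ×ˢ B e, |r e p| ≤ 1)
    (hh1 : ∀ e ∈ Ev, ∀ p ∈ B e ×ˢ T, |h e p| ≤ 1)
    (hh : ∀ e ∈ Ev, (∑ p ∈ B e ×ˢ T, h e p ^ 2) * (A e).card ≤
      ρ * (∑ p ∈ A e ×ˢ B e, r e p ^ 2) * T.card)
    (hv2 : ∀ e ∈ Ev, ∀ j ∈ s e, n2 (A e ×ˢ C e j) v ≤ V2)
    (hvN : ∀ e ∈ Ev, ∀ j ∈ s e, nN (A e ×ˢ C e j) v ≤ VN)
    (harea : ∑ e ∈ Ev, ((A e).card * (B e).card : ℝ) ≤ κ * R)
    (hmass : ∑ e ∈ Ev, ∑ p ∈ A e ×ˢ B e, r e p ^ 2 ≤ M * R) :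
    ∑ e ∈ Ev, ∑ j ∈ s e, wP 1 (A e ×ˢ B e ×ˢ C e j) (r e, v, h e) ≤
      R * T.card * pevm κ M ρ V2 VN := by
  have hsw : ∀ e, ∑ p ∈ B e ×ˢ A e, r e (p.2, p.1) ^ 2 = ∑ p ∈ A e ×ˢ B e, r e p ^ 2 := by
    intro e
    rw [sum_product, sum_product_right]
  have key := events_le_avg (Ev := Ev) (A := B) (B := A) (T := T) (s := s) (C := C) (θ := ρ)
    (G2 := V2) (GN := VN) (R := R) (κ := κ) (M := M) (r := fun e q => r e (q.2, q.1)) (b := h)
    (g := v) hB hA hC hCT hdis hρ hV2 hVN hR hκ hM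
    (fun e he p hp => hr e he _ (mem_product.2 ⟨(mem_product.1 hp).2, (mem_product.1 hp).1⟩))
    hh1 (fun e he => by rw [hsw e]; exact hh e he) hv2 hvN
    (by simpa only [mul_comm] using harea) (by simpa only [hsw] using hmass)
  refine le_trans (le_of_eq ?_) key
  refine sum_congr rfl fun e he => sum_congr rfl fun j hj => ?_
  exact (wP_swap12 (hA e he) (hB e he) (hC e he j hj) 1 (r e) v (h e)).symm

end rows

/-! ### The two slab inputs -/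

section slab

variable {V : Type*} [NormedAddCommGroup V] [InnerProductSpace ℝ V] {A B T : Finset ℤ}

/-- **Average rank.**  Vectors of norm at most one at the pivot `x`; each one which is not zero is
paid by the energy `W |B|`. -/
theorem slab_dir {ι : Type*} [Fintype ι] [DecidableEq V] {W ν0 : ℝ} (hW : 0 < W) (hν : 0 ≤ ν0)
    {e : ℤ → ι → V} (he : ∀ x ∈ A, ∀ i, ‖e x i‖ ≤ 1) {v : ℤ → ℤ → V}
    (hv : ∀ x ∈ A, opn T (v x) ≤ ν0 * T.card) {m : ℤ → ℝ}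
    (hn : ∀ x ∈ A, W * B.card * ((univ.filter fun i => e x i ≠ 0).card : ℝ) ≤ m x) :
    (∑ x ∈ A, ∑ z ∈ T, ∑ i, (inner ℝ (e x i) (v x z)) ^ 2) * B.card ≤
      ν0 / W * (∑ x ∈ A, m x) * T.card := by
  have h1 : ∀ x ∈ A, ∑ z ∈ T, ∑ i, (inner ℝ (e x i) (v x z)) ^ 2 ≤
      ((univ.filter fun i => e x i ≠ 0).card : ℝ) * (ν0 * T.card) := by
    intro x hx
    rw [sum_comm]
    have h0 : ∑ i, ∑ z ∈ T, (inner ℝ (e x i) (v x z)) ^ 2 =
        ∑ i ∈ univ.filter (fun i => e x i ≠ 0), ∑ z ∈ T, (inner ℝ (e x i) (v x z)) ^ 2 := by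
      rw [sum_filter_of_ne]
      intro i _ hne h
      refine hne (sum_eq_zero fun z _ => ?_)
      rw [h, inner_zero_left]
      ring
    rw [h0]
    calc ∑ i ∈ univ.filter (fun i => e x i ≠ 0), ∑ z ∈ T, (inner ℝ (e x i) (v x z)) ^ 2
        ≤ ∑ i ∈ univ.filter (fun i => e x i ≠ 0), ν0 * T.card := by
          refine sum_le_sum fun i _ => ?_
          have h2 := qf_le_opn T (v x) (e x i)
          have h3 := he x hx i
          have h4 : ‖e x i‖ ^ 2 ≤ 1 := pow_le_one₀ (norm_nonneg _) h3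
          calc ∑ z ∈ T, (inner ℝ (e x i) (v x z)) ^ 2 = qf T (v x) (e x i) :=
                sum_congr rfl fun z _ => by rw [real_inner_comm]
            _ ≤ opn T (v x) * ‖e x i‖ ^ 2 := h2
            _ ≤ opn T (v x) * 1 := mul_le_mul_of_nonneg_left h4 (opn_nonneg _ _)
            _ ≤ ν0 * T.card := by rw [mul_one]; exact hv x hx
      _ = _ := by rw [sum_const, nsmul_eq_mul]
  have h5 : ∑ x ∈ A, ((univ.filter fun i => e x i ≠ 0).card : ℝ) * (W * B.card) ≤ ∑ x ∈ A, m x :=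
    sum_le_sum fun x hx => by rw [mul_comm]; exact hn x hx
  calc (∑ x ∈ A, ∑ z ∈ T, ∑ i, (inner ℝ (e x i) (v x z)) ^ 2) * B.card
      ≤ (∑ x ∈ A, ((univ.filter fun i => e x i ≠ 0).card : ℝ) * (ν0 * T.card)) * B.card :=
        mul_le_mul_of_nonneg_right (sum_le_sum h1) (Nat.cast_nonneg _)
    _ = ν0 / W * (∑ x ∈ A, ((univ.filter fun i => e x i ≠ 0).card : ℝ) * (W * B.card)) *
        T.card := by
        rw [← sum_mul, ← sum_mul]
        field_simp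
    _ ≤ ν0 / W * (∑ x ∈ A, m x) * T.card := by
        have h0 : 0 ≤ ν0 / W := div_nonneg hν hW.le
        exact mul_le_mul_of_nonneg_right (mul_le_mul_of_nonneg_left h5 h0)
          (Nat.cast_nonneg _)

/-- **Heavy rows.**  On the rows of `Y` the average of `w` over `A` is at least `K'`; the rows of
the gauge have energy at most `d0`. -/
theorem slab_rows {Y : Finset ℤ} (hY : Y ⊆ B) {K' d0 : ℝ} (hK : 0 < K') (hd : 0 ≤ d0)
    {w : ℤ → ℤ → ℝ} (hw : ∀ y ∈ Y, K' * A.card ≤ ∑ x ∈ A, w x y) {g : ℤ × ℤ → ℝ}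
    (hg : ∀ y ∈ Y, ∑ z ∈ T, g (y, z) ^ 2 ≤ d0 * T.card) :
    (∑ p ∈ B ×ˢ T, (if p.1 ∈ Y then g p else 0) ^ 2) * A.card ≤
      d0 / K' * (∑ x ∈ A, ∑ y ∈ Y, w x y) * T.card := by
  have h1 : ∑ p ∈ B ×ˢ T, (if p.1 ∈ Y then g p else 0) ^ 2 = ∑ y ∈ Y, ∑ z ∈ T, g (y, z) ^ 2 := by
    rw [sum_product]
    rw [← sum_subset hY]
    · exact sum_congr rfl fun y hy => sum_congr rfl fun z _ => by
        simp only [if_pos hy]
    · intro y _ hy
      refine sum_eq_zero fun z _ => ?_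
      simp only [if_neg hy]
      ring
  have h2 : (Y.card : ℝ) * (K' * A.card) ≤ ∑ x ∈ A, ∑ y ∈ Y, w x y := by
    rw [sum_comm]
    calc (Y.card : ℝ) * (K' * A.card) = ∑ y ∈ Y, K' * A.card := by
          rw [sum_const, nsmul_eq_mul]
      _ ≤ _ := sum_le_sum hw
  have h3 : ∑ y ∈ Y, ∑ z ∈ T, g (y, z) ^ 2 ≤ Y.card * (d0 * T.card) := by
    calc _ ≤ ∑ y ∈ Y, d0 * (T.card : ℝ) := sum_le_sum hg
      _ = _ := by rw [sum_const, nsmul_eq_mul]
  rw [h1]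
  calc (∑ y ∈ Y, ∑ z ∈ T, g (y, z) ^ 2) * A.card
      ≤ (Y.card * (d0 * T.card)) * A.card := mul_le_mul_of_nonneg_right h3 (Nat.cast_nonneg _)
    _ = d0 / K' * (Y.card * (K' * A.card)) * T.card := by field_simp
    _ ≤ _ := by
        have h0 : 0 ≤ d0 / K' := div_nonneg hd hK.le
        exact mul_le_mul_of_nonneg_right (mul_le_mul_of_nonneg_left h2 h0) (Nat.cast_nonneg _)

end slab

end

end Vale.Agent.P141.H136
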